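import Crest.Agent.N76.II.B.Defs
import Crest.Agent.N76.Red.Pack
import Crest.Agent.N76.St.Abs

/-! # Row 76, part II B: coverings and counting (helper8). -/

set_option autoImplicit false

open MeasureTheory Set Metric
open scoped ENNReal RealInnerProductSpace

namespace Crest.Agent.N76.II.B

open Crest.Agent.N76.Red (V ph)
open Crest.Agent.N76.G

/-! ### coverings -/

section Cov

variable {ι α : Type*} [PseudoMetricSpace α] {p : ι → α}

lemma cov_mono {X Y : Finset ι} {r r' N N' : ℝ} (h : Cov X p r N) (hY : Y ⊆ X) (hr : r ≤ r')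
    (hN : N ≤ N') : Cov Y p r' N' := by
  obtain ⟨F, h1, h2⟩ := h
  exact ⟨F, h1.trans hN, fun i hi => by
    obtain ⟨c, hc, hd⟩ := h2 i (hY hi)
    exact ⟨c, hc, hd.trans hr⟩⟩

lemma cov_biUnion {κ : Type*} (s : Finset κ) {X : Finset ι} (E : κ → Finset ι) {r : ℝ}
    (N : κ → ℝ) (h : ∀ k ∈ s, Cov (E k) p r (N k)) (hX : ∀ i ∈ X, ∃ k ∈ s, i ∈ E k) :
    Cov X p r (∑ k ∈ s, N k) := by
  classical
  choose! F hF1 hF2 using h
  refine ⟨s.biUnion F, ?_, fun i hi => ?_⟩
  · calc ((s.biUnion F).card : ℝ) ≤ ((∑ k ∈ s, (F k).card : ℕ) : ℝ) := by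
          exact_mod_cast Finset.card_biUnion_le
      _ = ∑ k ∈ s, ((F k).card : ℝ) := by push_cast; rfl
      _ ≤ _ := Finset.sum_le_sum hF1
  · obtain ⟨k, hk, hik⟩ := hX i hi
    obtain ⟨c, hc, hd⟩ := hF2 k hk i hik
    exact ⟨c, Finset.mem_biUnion.2 ⟨k, hk, hc⟩, hd⟩


omit [PseudoMetricSpace α] in
lemma ms_mono {X Y : Finset ι} {w : ι → ℝ} (hw : ∀ i ∈ X, 0 ≤ w i) (hY : Y ⊆ X) {E E' : Set α}
    (hE : ∀ i ∈ Y, p i ∈ E → p i ∈ E') : ms Y p w E ≤ ms X p w E' := by
  classical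
  unfold ms
  refine Finset.sum_le_sum_of_subset_of_nonneg (fun i hi => ?_)
    fun i hi _ => hw i (Finset.mem_filter.1 hi).1
  obtain ⟨h1, h2⟩ := Finset.mem_filter.1 hi
  exact Finset.mem_filter.2 ⟨hY h1, hE i h1 h2⟩

open Classical in
/-- the centres of heavy balls are covered by few balls -/
lemma cov_heavy (X : Finset ι) {w : ι → ℝ} (hw : ∀ i ∈ X, 0 ≤ w i) {r θ : ℝ} (hr : 0 ≤ r)
    (hθ : 0 < θ) :
    Cov (X.filter fun i => θ < ms X p w (closedBall (p i) r)) p (2 * r) ((∑ i ∈ X, w i) / θ) := by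
  set Z := X.filter fun i => θ < ms X p w (closedBall (p i) r) with hZ
  set P : Finset ι → Prop := fun S => ∀ i ∈ S, ∀ j ∈ S, i ≠ j → 2 * r < dist (p i) (p j) with hP
  obtain ⟨S, hS, hmax⟩ := (Z.powerset.filter P).exists_max_image Finset.card
    ⟨∅, Finset.mem_filter.2 ⟨Finset.empty_mem_powerset _, by simp [hP]⟩⟩
  obtain ⟨hSZ, hSP⟩ := Finset.mem_filter.1 hS
  rw [Finset.mem_powerset] at hSZ
  refine ⟨S.image p, ?_, fun i hi => ?_⟩
  · have h1 : (S.card : ℝ) * θ ≤ ∑ i ∈ X, w i := by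
      calc (S.card : ℝ) * θ = ∑ _i ∈ S, θ := by simp
        _ ≤ ∑ i ∈ S, ms X p w (closedBall (p i) r) :=
            Finset.sum_le_sum fun i hi => (Finset.mem_filter.1 (hSZ hi)).2.le
        _ = ∑ j ∈ S.biUnion fun i => X.filter fun j => p j ∈ closedBall (p i) r, w j := by
            rw [Finset.sum_biUnion]
            · rfl
            · intro i hi j hj hij
              refine Finset.disjoint_left.2 fun z h1 h2 => ?_
              have h3 := mem_closedBall.1 (Finset.mem_filter.1 h1).2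
              have h4 := mem_closedBall.1 (Finset.mem_filter.1 h2).2
              have h5 := hSP i hi j hj hij
              have h6 := dist_triangle_left (p i) (p j) (p z)
              linarith
        _ ≤ _ := Finset.sum_le_sum_of_subset_of_nonneg
            (Finset.biUnion_subset.2 fun i _ => Finset.filter_subset _ _) fun i hi _ => hw i hi
    rw [le_div_iff₀ hθ]
    refine le_trans ?_ h1
    gcongr
    exact Finset.card_image_le
  · by_contra hcon
    push Not at hcon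
    have hiS : i ∉ S := fun h => by
      have := hcon (p i) (Finset.mem_image_of_mem p h)
      rw [dist_self] at this
      linarith
    have := hmax (insert i S) (Finset.mem_filter.2 ⟨Finset.mem_powerset.2
      (Finset.insert_subset hi hSZ), fun a ha b hb hab => ?_⟩)
    · rw [Finset.card_insert_of_notMem hiS] at this
      omega
    · rcases Finset.mem_insert.1 ha with rfl | ha'
      · rcases Finset.mem_insert.1 hb with rfl | hb'
        · exact absurd rfl hab
        · exact hcon _ (Finset.mem_image_of_mem p hb')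
      · rcases Finset.mem_insert.1 hb with rfl | hb'
        · rw [dist_comm]; exact hcon _ (Finset.mem_image_of_mem p ha')
        · exact hSP a ha' b hb' hab

end Cov

variable {d : ℕ}

/-- a vector from its first coordinate and the rest -/
noncomputable def cns (a : ℝ) (x : V d) : V (d + 1) := WithLp.toLp 2 (Fin.cons a fun i => x i)

lemma norm_sub_cns_le (x : V (d + 1)) (a : ℝ) (c : V d) :
    ‖x - cns a c‖ ≤ |x 0 - a| + ‖tl x - c‖ := by
  have h : ‖x - cns a c‖ ^ 2 = |x 0 - a| ^ 2 + ‖tl x - c‖ ^ 2 := by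
    rw [EuclideanSpace.norm_sq_eq, EuclideanSpace.norm_sq_eq, Fin.sum_univ_succ]
    simp [cns, tl]
  refine abs_le_of_sq_le_sq' ?_ (by positivity) |>.2
  rw [h]
  nlinarith [abs_nonneg (x 0 - a), norm_nonneg (tl x - c)]

lemma norm_tl_le (x : V (d + 1)) : ‖tl x‖ ≤ ‖x‖ := by
  have h : ‖x‖ ^ 2 = |x 0| ^ 2 + ‖tl x‖ ^ 2 := by
    rw [EuclideanSpace.norm_sq_eq, EuclideanSpace.norm_sq_eq, Fin.sum_univ_succ]
    simp [tl]
  refine abs_le_of_sq_le_sq' ?_ (by positivity) |>.2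
  rw [h]
  nlinarith [sq_nonneg |x 0|]

/-- from a covering of the projection to a covering -/
lemma cov_lift {E : Finset (V (d + 1) × ℝ)} {c₀ r N a l : ℝ} (hc : |c₀| ≤ 2) (hr : 0 < r)
    (hl : 0 ≤ l) (h : Cov E pr r N) (hE : ∀ z ∈ E, a ≤ yc c₀ z ∧ yc c₀ z ≤ a + l) :
    Cov E id (6 * r) (N * (l / r + 1)) := by
  classical
  obtain ⟨F, h1, h2⟩ := h
  refine ⟨(F ×ˢ Finset.range (⌊l / r⌋₊ + 1)).image fun q =>
    (cns (a + q.2 * r - 2 * c₀ * q.1.2) q.1.1, q.1.2), ?_, fun z hz => ?_⟩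
  · calc _ ≤ ((F ×ˢ Finset.range (⌊l / r⌋₊ + 1)).card : ℝ) := by
          exact_mod_cast Finset.card_image_le
      _ = F.card * (⌊l / r⌋₊ + 1) := by simp
      _ ≤ _ := by
          gcongr
          · exact le_trans (Nat.cast_nonneg _) h1
          · exact Nat.floor_le (by positivity)
  · obtain ⟨c, hcF, hd⟩ := h2 z hz
    obtain ⟨h3, h4⟩ := hE z hz
    set i := ⌊(yc c₀ z - a) / r⌋₊ with hi
    have hi0 : 0 ≤ (yc c₀ z - a) / r := div_nonneg (by linarith) hr.le
    have hi1 : (i : ℝ) * r ≤ yc c₀ z - a := by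
      rw [← le_div_iff₀ hr]; exact Nat.floor_le hi0
    have hi2 : yc c₀ z - a < (i + 1) * r := by
      rw [← div_lt_iff₀ hr]; exact Nat.lt_floor_add_one _
    refine ⟨_, Finset.mem_image.2 ⟨(c, i), Finset.mem_product.2 ⟨hcF, Finset.mem_range.2
      (Nat.lt_succ_of_le (Nat.floor_mono ?_))⟩, rfl⟩, ?_⟩
    · gcongr; linarith
    · rw [Prod.dist_eq, max_le_iff] at hd ⊢
      obtain ⟨h5, h6⟩ := hd
      simp only [pr, dist_eq_norm, id] at h5 h6 ⊢
      refine ⟨(norm_sub_cns_le _ _ _).trans ?_, by linarith⟩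
      have h7 : z.1 0 - (a + i * r - 2 * c₀ * c.2) =
          (yc c₀ z - a - i * r) - 2 * c₀ * (z.2 - c.2) := by unfold yc; ring
      have h8 : |2 * c₀ * (z.2 - c.2)| ≤ 4 * r := by
        rw [abs_mul, abs_mul, abs_two]
        have : |z.2 - c.2| ≤ r := h6
        nlinarith [abs_nonneg c₀, abs_nonneg (z.2 - c.2)]
      have h9 : |yc c₀ z - a - i * r| ≤ r := abs_le.2 ⟨by linarith, by linarith⟩
      rw [h7]
      linarith [abs_sub (yc c₀ z - a - i * r) (2 * c₀ * (z.2 - c.2))]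

lemma card_le_of_cov {n : ℕ} {R : ℝ} {X E : Finset (V n × ℝ)} (hX : Graph R X) (hE : E ⊆ X)
    {ρ N : ℝ} (hρ : 0 ≤ ρ) (h : Cov E id ρ N) : (E.card : ℝ) ≤ N * (2 * ρ + 1) ^ n := by
  classical
  obtain ⟨F, h1, h2⟩ := h
  have key : ∀ c : V n × ℝ, ((E.filter fun z => dist z c ≤ ρ).card : ℝ) ≤ (2 * ρ + 1) ^ n := by
    intro c
    set G := E.filter fun z => dist z c ≤ ρ with hG
    have hGX : ∀ z ∈ G, z ∈ X := fun z hz => hE (Finset.mem_filter.1 hz).1
    have hinj : Set.InjOn (fun z : V n × ℝ => z.1) G := by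
      intro z hz z' hz' hzz
      by_contra hne
      have := hX.2 z (hGX z hz) z' (hGX z' hz') hne
      simp only at hzz
      rw [hzz, sub_self, norm_zero] at this
      linarith
    rw [← Finset.card_image_of_injOn hinj]
    refine Red.card_le_of_sep _ c.1 hρ (fun x hx => ?_) fun x hx y hy hxy => ?_
    · obtain ⟨z, hz, rfl⟩ := Finset.mem_image.1 hx
      have := (Finset.mem_filter.1 hz).2
      rw [Prod.dist_eq, max_le_iff, dist_eq_norm] at this
      exact this.1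
    · obtain ⟨z, hz, rfl⟩ := Finset.mem_image.1 hx
      obtain ⟨z', hz', rfl⟩ := Finset.mem_image.1 hy
      exact hX.2 z (hGX z hz) z' (hGX z' hz') fun h => hxy (by rw [h])
  calc (E.card : ℝ) ≤ ((F.biUnion fun c => E.filter fun z => dist z c ≤ ρ).card : ℝ) := by
        refine Nat.cast_le.2 (Finset.card_le_card fun z hz => ?_)
        obtain ⟨c, hc, hd⟩ := h2 z hz
        exact Finset.mem_biUnion.2 ⟨c, hc, Finset.mem_filter.2 ⟨hz, hd⟩⟩
    _ ≤ ((∑ c ∈ F, (E.filter fun z => dist z c ≤ ρ).card : ℕ) : ℝ) := by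
        exact_mod_cast Finset.card_biUnion_le
    _ = ∑ c ∈ F, ((E.filter fun z => dist z c ≤ ρ).card : ℝ) := by push_cast; rfl
    _ ≤ ∑ _c ∈ F, (2 * ρ + 1) ^ n := Finset.sum_le_sum fun c _ => key c
    _ = F.card * (2 * ρ + 1) ^ n := by simp
    _ ≤ _ := by gcongr

lemma card_graph_le {n : ℕ} {R : ℝ} {X : Finset (V n × ℝ)} (hX : Graph R X) (hR : 1 ≤ R) :
    (X.card : ℝ) ≤ (3 * R) ^ n := by
  have := card_le_of_cov hX subset_rfl (by linarith : 0 ≤ R) (N := 1)
    ⟨{0}, by simp, fun z hz => ⟨0, by simp, by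
      rw [Prod.dist_eq, max_le_iff]; simpa using hX.1 z hz⟩⟩
  rw [one_mul] at this
  exact this.trans (by gcongr; linarith)

/-- points in a column -/
lemma card_col {R : ℝ} {X E : Finset (V (d + 1) × ℝ)} (hX : Graph R X) (hE : E ⊆ X)
    {c₀ r a l : ℝ} (hc : |c₀| ≤ 2) (hr : 1 ≤ r) (hl : 0 ≤ l) (u : V d × ℝ)
    (h1 : ∀ z ∈ E, dist (pr z) u ≤ r) (h2 : ∀ z ∈ E, a ≤ yc c₀ z ∧ yc c₀ z ≤ a + l) :
    (E.card : ℝ) ≤ (l / r + 1) * (13 * r) ^ (d + 1) := by
  have := card_le_of_cov hX hE (by linarith) (cov_lift hc (by linarith) hl (N := 1)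
    ⟨{u}, by simp, fun z hz => ⟨u, by simp, h1 z hz⟩⟩ h2)
  rw [one_mul] at this
  refine this.trans ?_
  gcongr
  linarith

lemma sum_exp_int (s : Finset ℤ) (a : ℤ) : ∑ m ∈ s, Real.exp (-|(a : ℝ) - m|) ≤ 4 := by
  have he : Real.exp (-1) ≤ 1 / 2 := by
    rw [Real.exp_neg, one_div]
    gcongr
    linarith [Real.add_one_le_exp 1]
  have := St.sum_rpow_abs_le (Real.exp_pos (-1)) (by linarith) s a
  calc _ = ∑ j ∈ s, Real.exp (-1) ^ |(j : ℝ) - a| := by
        refine Finset.sum_congr rfl fun j _ => ?_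
        rw [← Real.exp_mul, abs_sub_comm]; congr 1; ring
    _ ≤ _ := this
    _ ≤ 4 := by rw [div_le_iff₀ (by linarith)]; linarith

/-- index of the interval of length `r` containing `y_z` -/
noncomputable def mi (r c₀ : ℝ) (z : V (d + 1) × ℝ) : ℤ := ⌊yc c₀ z / r⌋

/-- normalising constant -/
noncomputable def kap (d : ℕ) : ℝ := 1 / (8 * 13 ^ (d + 1))

lemma kap_pos (d : ℕ) : 0 < kap d := by unfold kap; positivity

lemma kap_le (d : ℕ) : kap d ≤ 1 / 8 := by
  unfold kap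
  have : (1 : ℝ) ≤ 13 ^ (d + 1) := one_le_pow₀ (by norm_num)
  gcongr
  linarith

/-- the weight of the slice `m` -/
noncomputable def ww (r c₀ : ℝ) (m : ℤ) (z : V (d + 1) × ℝ) : ℝ :=
  kap d / r * Real.exp (-|(mi r c₀ z : ℝ) - m|)

lemma ww_nonneg {r : ℝ} (hr : 0 < r) (c₀ : ℝ) (m : ℤ) (z : V (d + 1) × ℝ) : 0 ≤ ww r c₀ m z := by
  unfold ww; have := kap_pos d; positivity

lemma mi_bounds {r : ℝ} (hr : 0 < r) (c₀ : ℝ) (z : V (d + 1) × ℝ) :
    (mi r c₀ z : ℝ) * r ≤ yc c₀ z ∧ yc c₀ z ≤ (mi r c₀ z : ℝ) * r + r := by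
  constructor
  · rw [← le_div_iff₀ hr]; exact Int.floor_le _
  · have : yc c₀ z / r < mi r c₀ z + 1 := Int.lt_floor_add_one _
    rw [div_lt_iff₀ hr] at this
    linarith

lemma sum_ww_le {r : ℝ} (hr : 0 < r) (c₀ : ℝ) (s : Finset ℤ) (z : V (d + 1) × ℝ) :
    ∑ m ∈ s, ww r c₀ m z ≤ 1 / r := by
  unfold ww
  rw [← Finset.mul_sum]
  have h1 := kap_le d
  have h2 := kap_pos d
  calc _ ≤ (1 / 8) / r * 4 := by gcongr; exact sum_exp_int s _
    _ ≤ 1 / r := by rw [div_mul_eq_mul_div]; gcongr; norm_num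

/-- the mass of a ball for the weight of a slice -/
lemma ms_ww_le {R : ℝ} {X : Finset (V (d + 1) × ℝ)} (hX : Graph R X) {c₀ r₂ r : ℝ}
    (hc : |c₀| ≤ 2) (hr₂ : 0 < r₂) (hr : 1 ≤ r) (m : ℤ) (u : V d × ℝ) :
    ms X pr (ww r₂ c₀ m) (closedBall u r) ≤ (r₂ / r + 1) / 2 * r ^ (d + 1) / r₂ := by
  classical
  unfold ms
  set G := X.filter fun z => pr z ∈ closedBall u r with hG
  rw [← Finset.sum_fiberwise_of_maps_to (s := G) (t := G.image (mi r₂ c₀)) (g := mi r₂ c₀)
    fun z hz => Finset.mem_image_of_mem _ hz]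
  have hk := kap_pos d
  calc _ ≤ ∑ j ∈ G.image (mi r₂ c₀), (kap d / r₂ * ((r₂ / r + 1) * (13 * r) ^ (d + 1))) *
        Real.exp (-|(m : ℝ) - j|) := by
        refine Finset.sum_le_sum fun j _ => ?_
        have h1 : ∀ z ∈ G.filter fun z => mi r₂ c₀ z = j,
            ww r₂ c₀ m z = kap d / r₂ * Real.exp (-|(m : ℝ) - j|) := by
          intro z hz
          rw [ww, (Finset.mem_filter.1 hz).2, abs_sub_comm]
        rw [Finset.sum_congr rfl h1, Finset.sum_const, nsmul_eq_mul]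
        have h2 := card_col (E := G.filter fun z => mi r₂ c₀ z = j) hX
          ((Finset.filter_subset _ _).trans (Finset.filter_subset _ _)) hc hr hr₂.le u
          (a := j * r₂) (fun z hz => (Finset.mem_filter.1 (Finset.mem_filter.1 hz).1).2)
          fun z hz => by
            have := mi_bounds hr₂ c₀ z
            rwa [(Finset.mem_filter.1 hz).2] at this
        calc _ ≤ ((r₂ / r + 1) * (13 * r) ^ (d + 1)) * (kap d / r₂ * Real.exp (-|(m : ℝ) - j|)) := by
              gcongr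
          _ = _ := by ring
    _ ≤ (kap d / r₂ * ((r₂ / r + 1) * (13 * r) ^ (d + 1))) * 4 := by
        rw [← Finset.mul_sum]
        gcongr
        exact sum_exp_int _ _
    _ = _ := by unfold kap; rw [mul_pow]; field_simp; ring

/-- the smooth count of the points of a column -/
lemma exists_col_const (d : ℕ) : ∃ A : ℝ, 1 ≤ A ∧ ∀ (R : ℝ) (X E : Finset (V (d + 1) × ℝ))
    (c₀ l a : ℝ) (u : V d × ℝ), Graph R X → E ⊆ X → |c₀| ≤ 2 → 1 ≤ l →
    (∀ z ∈ E, a ≤ yc c₀ z ∧ yc c₀ z ≤ a + l) → dens E pr (fun _ => 1) l u ≤ A := by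
  classical
  have hs : Summable fun j : ℕ => (((j + 1 : ℕ) : ℝ) ^ (d + 1) * Real.exp (-1 * ((j + 1 : ℕ) : ℝ))) :=
    (summable_nat_add_iff 1).2 (Real.summable_pow_mul_exp_neg_nat_mul (d + 1) one_pos)
  set S := ∑' j : ℕ, (((j + 1 : ℕ) : ℝ) ^ (d + 1) * Real.exp (-1 * ((j + 1 : ℕ) : ℝ))) with hS
  refine ⟨max 1 (2 * 13 ^ (d + 1) * Real.exp 1 * S), le_max_left _ _,
    fun R X E c₀ l a u hX hE hc hl hy => le_trans ?_ (le_max_right _ _)⟩
  have hl0 : 0 < l := by linarith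
  unfold dens
  rw [div_le_iff₀ (by positivity)]
  set φ : V (d + 1) × ℝ → ℕ := fun z => ⌊dist u (pr z) / l⌋₊ with hφ
  rw [← Finset.sum_fiberwise_of_maps_to (s := E) (t := E.image φ) (g := φ)
    fun z hz => Finset.mem_image_of_mem _ hz]
  calc _ ≤ ∑ j ∈ E.image φ, (2 * 13 ^ (d + 1) * Real.exp 1 * l ^ (d + 1)) *
        (((j + 1 : ℕ) : ℝ) ^ (d + 1) * Real.exp (-1 * ((j + 1 : ℕ) : ℝ))) := by
        refine Finset.sum_le_sum fun j _ => ?_
        have hj1 : (1 : ℝ) ≤ ((j + 1 : ℕ) : ℝ) := by exact_mod_cast Nat.le_add_left 1 j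
        have h2 := card_col (E := E.filter fun z => φ z = j) hX
          ((Finset.filter_subset _ _).trans hE) hc (r := ((j + 1 : ℕ) : ℝ) * l) (by nlinarith)
          hl0.le u (a := a) (fun z hz => by
            have h3 : dist u (pr z) / l < φ z + 1 := Nat.lt_floor_add_one _
            rw [(Finset.mem_filter.1 hz).2, div_lt_iff₀ hl0] at h3
            rw [dist_comm]; push_cast; exact h3.le)
          fun z hz => hy z (Finset.mem_filter.1 hz).1
        have h4 : l / (((j + 1 : ℕ) : ℝ) * l) + 1 ≤ 2 := by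
          have : l / (((j + 1 : ℕ) : ℝ) * l) ≤ 1 := by
            rw [div_le_one (by positivity)]; nlinarith
          linarith
        calc _ ≤ ∑ _z ∈ E.filter fun z => φ z = j, Real.exp (-(j : ℝ)) := by
              refine Finset.sum_le_sum fun z hz => ?_
              rw [one_mul]
              refine Real.exp_le_exp.2 (neg_le_neg ?_)
              rw [← (Finset.mem_filter.1 hz).2]
              exact Nat.floor_le (by positivity)
          _ = ((E.filter fun z => φ z = j).card : ℝ) * Real.exp (-(j : ℝ)) := by simp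
          _ ≤ (2 * (13 * (((j + 1 : ℕ) : ℝ) * l)) ^ (d + 1)) * Real.exp (-(j : ℝ)) := by
              gcongr
              exact h2.trans (by gcongr)
          _ = _ := by
              have : Real.exp (-(j : ℝ)) = Real.exp 1 * Real.exp (-1 * ((j + 1 : ℕ) : ℝ)) := by
                rw [← Real.exp_add]; congr 1; push_cast; ring
              rw [this, mul_pow, mul_pow]; ring
    _ ≤ (2 * 13 ^ (d + 1) * Real.exp 1 * l ^ (d + 1)) * S := by
        rw [← Finset.mul_sum]
        gcongr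
        exact hs.sum_le_tsum _ fun j _ => by positivity
    _ = _ := by ring

end Crest.Agent.N76.II.B
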