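import Crest.Agent.N76.II.B.Defs
import Crest.Agent.N76.G.Gam
import Crest.Agent.N76.G.Iso
import Crest.Agent.N76.St.Abs
import Crest.Agent.N76.Red.Basic
import Crest.Agent.N76.II.B.Geo
import Crest.Agent.N76.II.B.Bush
import Crest.Agent.N76.G.Tail
import Crest.Agent.N76.St.Main

-- ▼ part N76/II/B/Slice
section

/-! # Row 76, part II B1: slicing in the direction `e₀` -/

set_option autoImplicit false

open MeasureTheory Set Metric
open scoped ENNReal RealInnerProductSpace ComplexConjugate FourierTransform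

namespace Crest.Agent.N76.II.B

open Crest.Agent.N76.Red (V ph)
open Crest.Agent.N76.G

variable {d : ℕ}

lemma measurable_of_edist {α E : Type*} [MeasurableSpace α] [PseudoEMetricSpace E]
    [SecondCountableTopology E] [MeasurableSpace E] [BorelSpace E] {F : α → E}
    (h : ∀ φ, Measurable fun a => edist (F a) φ) : Measurable F := by
  refine measurable_of_isOpen fun U hU => ?_
  obtain ⟨T, hT, hTS, hU'⟩ := TopologicalSpace.isOpen_sUnion_countable
    {s | s ⊆ U ∧ ∃ φ r, s = eball φ r} (by rintro s ⟨-, φ, r, rfl⟩; exact isOpen_eball)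
  have : U = ⋃₀ T := by
    rw [hU']
    refine Subset.antisymm (fun x hx => ?_) (sUnion_subset fun s hs => hs.1)
    obtain ⟨ε, hε, hb⟩ := EMetric.isOpen_iff.1 hU x hx
    exact ⟨_, ⟨hb, x, ε, rfl⟩, mem_eball_self hε⟩
  rw [this, preimage_sUnion]
  refine MeasurableSet.biUnion hT fun s hs => ?_
  obtain ⟨-, φ, r, rfl⟩ := hTS hs
  exact measurableSet_lt (h φ) measurable_const

lemma enorm_sq_L2 {α : Type*} [MeasurableSpace α] {μ : Measure α} (h : Lp ℂ 2 μ) :
    ‖h‖ₑ ^ 2 = ∫⁻ x, ‖h x‖ₑ ^ 2 ∂μ := by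
  rw [← ofReal_norm, ← ENNReal.ofReal_pow (norm_nonneg _), ← Iso.integral_norm_sq_L2,
    ofReal_integral_eq_lintegral_ofReal (Iso.integrable_norm_sq_L2 h)
      (.of_forall fun _ => by positivity)]
  simp only [← ofReal_norm, ENNReal.ofReal_pow (norm_nonneg _)]

lemma memLp_two_of_lintegral {α E : Type*} [MeasurableSpace α] {μ : Measure α}
    [NormedAddCommGroup E] {f : α → E} (hf : AEStronglyMeasurable f μ)
    (h : ∫⁻ x, ‖f x‖ₑ ^ 2 ∂μ ≠ ∞) : MemLp f 2 μ := by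
  refine ⟨hf, (eLpNorm_lt_top_iff_lintegral_rpow_enorm_lt_top two_ne_zero (by simp)).2 ?_⟩
  simpa using h.lt_top

/-- a square integrable function of two variables as a Hilbert valued function -/
lemma exists_curry {f : ℝ × V d → ℂ} (hf : Measurable f) (h2 : ∫⁻ p, ‖f p‖ₑ ^ 2 ≠ ∞) :
    ∃ F : ℝ → L2 d, StronglyMeasurable F ∧ (∀ η, F η =ᵐ[volume] (fun ξ => f (η, ξ)) ∨ F η = 0) ∧
      (∀ᵐ η, F η =ᵐ[volume] fun ξ => f (η, ξ)) ∧ ∫⁻ η, ‖F η‖ₑ ^ 2 = ∫⁻ p, ‖f p‖ₑ ^ 2 := by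
  classical
  have hm : Measurable fun η => ∫⁻ ξ, ‖f (η, ξ)‖ₑ ^ 2 := (hf.enorm.pow_const 2).lintegral_prod_right'
  set S : Set ℝ := {η | ∫⁻ ξ, ‖f (η, ξ)‖ₑ ^ 2 < ∞} with hS
  have hSm : MeasurableSet S := measurableSet_lt hm measurable_const
  set f' : ℝ × V d → ℂ := (Prod.fst ⁻¹' S).indicator f with hf'
  have hf'm : Measurable f' := hf.indicator (measurable_fst hSm)
  have e1 : ∀ η ∈ S, (fun ξ => f' (η, ξ)) = fun ξ => f (η, ξ) := fun η hη =>
    funext fun ξ => indicator_of_mem (show (η, ξ) ∈ Prod.fst ⁻¹' S from hη) _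
  have e2 : ∀ η ∉ S, (fun ξ => f' (η, ξ)) = 0 := fun η hη =>
    funext fun ξ => indicator_of_notMem (show (η, ξ) ∉ Prod.fst ⁻¹' S from hη) _
  have hL : ∀ η, MemLp (fun ξ => f' (η, ξ)) 2 volume := fun η => by
    by_cases hη : η ∈ S
    · rw [e1 η hη]
      exact memLp_two_of_lintegral (hf.comp measurable_prodMk_left).aestronglyMeasurable
        (ne_of_lt hη)
    · rw [e2 η hη]; exact MemLp.zero
  have hae : ∀ᵐ η, η ∈ S := ae_lt_top hm (by
    rwa [Measure.volume_eq_prod, lintegral_prod _ (hf.enorm.pow_const 2).aemeasurable] at h2)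
  have h3 : ∀ᵐ η, (hL η).toLp _ =ᵐ[volume] fun ξ => f (η, ξ) :=
    hae.mono fun η hη => by rw [← e1 η hη]; exact MemLp.coeFn_toLp _
  refine ⟨fun η => (hL η).toLp _, ?_, fun η => ?_, h3, ?_⟩
  · borelize ↥(L2 d)
    have : Fact ((2 : ℝ≥0∞) ≠ ∞) := ⟨by simp⟩
    refine Measurable.stronglyMeasurable (measurable_of_edist fun φ => ?_)
    have e3 : ∀ η, edist ((hL η).toLp _) φ = (∫⁻ ξ, ‖f' (η, ξ) - φ ξ‖ₑ ^ 2) ^ (1 / 2 : ℝ) := by
      intro η
      rw [edist_eq_enorm_sub, ← lintegral_congr_ae (f := fun ξ => ‖((hL η).toLp _ - φ) ξ‖ₑ ^ 2),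
        ← enorm_sq_L2, ← ENNReal.rpow_natCast, ← ENNReal.rpow_mul]
      · norm_num
      · filter_upwards [Lp.coeFn_sub ((hL η).toLp _) φ, (hL η).coeFn_toLp] with ξ h1 h2
        rw [h1, Pi.sub_apply, h2]
    simp only [e3]
    exact ((hf'm.sub ((Lp.stronglyMeasurable φ).measurable.comp measurable_snd)).enorm.pow_const
      2).lintegral_prod_right'.pow_const _
  · by_cases hη : η ∈ S
    · left; rw [← e1 η hη]; exact MemLp.coeFn_toLp _
    · right
      refine Lp.ext ((hL η).coeFn_toLp.trans ?_)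
      rw [e2 η hη]; exact (Lp.coeFn_zero _ _ _).symm
  · rw [Measure.volume_eq_prod, lintegral_prod _ (hf.enorm.pow_const 2).aemeasurable]
    refine lintegral_congr_ae (h3.mono fun η hη => ?_)
    simp only
    rw [enorm_sq_L2]
    exact lintegral_congr_ae (hη.mono fun ξ hξ => by simp only [hξ])

lemma integrable_mul_ph {c : ℝ → ℂ} (hc : Integrable c) {θ : ℝ → ℝ} (hθ : Continuous θ) :
    Integrable fun η => c η * ph (θ η) :=
  hc.norm.mono' (hc.1.mul (Red.continuous_ph.comp hθ).aestronglyMeasurable)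
    (.of_forall fun η => by rw [norm_mul, Red.norm_ph, mul_one])

lemma continuous_U1 {c : ℝ → ℂ} (hc : Integrable c) (t : ℝ) : Continuous (U1 t c) := by
  refine continuous_of_dominated (bound := fun η => ‖c η‖)
    (fun y => (integrable_mul_ph hc (by fun_prop)).1)
    (fun y => .of_forall fun η => by rw [norm_mul, Red.norm_ph, mul_one]) hc.norm
    (.of_forall fun η => ?_)
  exact continuous_const.mul (Red.continuous_ph.comp (by fun_prop))

lemma norm_U1_le (c : ℝ → ℂ) (t y : ℝ) : ‖U1 t c y‖ ≤ ∫ η, ‖c η‖ := by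
  refine (norm_integral_le_integral_norm _).trans (le_of_eq ?_)
  simp only [norm_mul, Red.norm_ph, mul_one]

/-- Plancherel for the one dimensional propagator -/
lemma lintegral_U1 {c : ℝ → ℂ} (h1 : Integrable c) (h2 : MemLp c 2 volume) (t : ℝ) :
    ∫⁻ y, ‖U1 t c y‖ₑ ^ 2 = ∫⁻ η, ‖c η‖ₑ ^ 2 := by
  set c' : ℝ → ℂ := fun η => c η * ph (t * η ^ 2) with hc'
  have i1 : Integrable c' := integrable_mul_ph h1 (by fun_prop)
  have n1 : ∀ η, ‖c' η‖ = ‖c η‖ := fun η => by rw [hc', norm_mul, Red.norm_ph, mul_one]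
  have i2 : MemLp c' 2 volume := h2.of_le i1.1 (.of_forall fun η => (n1 η).le)
  have e : ∀ y, U1 t c y = 𝓕 c' (-y) := fun y => by
    rw [Real.fourier_real_eq_integral_exp_smul, U1]
    refine integral_congr_ae (.of_forall fun η => ?_)
    simp only [hc', smul_eq_mul, Red.ph_add]
    rw [mul_left_comm]
    congr 2
    unfold ph; congr 1; push_cast; ring
  have key : ∀ {u : ℝ → ℂ}, MemLp u 2 volume →
      ∫⁻ y, ‖u y‖ₑ ^ 2 = ENNReal.ofReal (∫ y, ‖u y‖ ^ 2) := fun hu => by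
    rw [ofReal_integral_eq_lintegral_ofReal ((memLp_two_iff_integrable_sq_norm hu.1).1 hu)
      (.of_forall fun _ => by positivity)]
    simp only [← ofReal_norm, ENNReal.ofReal_pow (norm_nonneg _)]
  simp only [e]
  rw [lintegral_neg_eq_self fun y => ‖𝓕 c' y‖ₑ ^ 2, key (R070.Cs145.memLp_fourier i1 i2),
    R070.Cs145.integral_norm_sq_fourier i1 i2, key h2]
  simp only [n1]

/-- a Gaussian cut-off in frequency makes the propagator locally constant -/
lemma one_dim {r t t₀ : ℝ} (hr : 0 < r) (ht : |t - t₀| ≤ r ^ 2) {c : ℝ → ℂ} (hc : Integrable c)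
    (y₀ : ℝ) :
    ENNReal.ofReal (‖∫ η, c η * (Real.exp (-(Real.pi * r ^ 2 * η ^ 2)) *
        ph (y₀ * η + t * η ^ 2))‖ ^ 2) ≤
      ∫⁻ y, ENNReal.ofReal (9 / r * Real.exp (-(|y₀ - y| / r)) * ‖U1 t₀ c y‖ ^ 2) := by
  have hπ := Real.pi_gt_three
  set B : ℂ := (r : ℂ) ^ 2 - 2 * (t - t₀ : ℝ) * Complex.I with hB
  have hBre : B.re = r ^ 2 := by simp [hB, ← Complex.ofReal_pow]
  have hBn : Complex.normSq B = r ^ 4 + 4 * (t - t₀) ^ 2 := by
    rw [Complex.normSq_apply, hBre]; simp [hB, ← Complex.ofReal_pow]; ring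
  have hB0 : B ≠ 0 := fun h => by rw [h] at hBre; simp at hBre; nlinarith
  have hbre : ((Real.pi : ℂ) / B).re = Real.pi * r ^ 2 / (r ^ 4 + 4 * (t - t₀) ^ 2) := by
    rw [div_eq_mul_inv, Complex.re_ofReal_mul, Complex.inv_re, hBre, hBn, mul_div_assoc]
  have hb : 0 < ((Real.pi : ℂ) / B).re := by rw [hbre]; positivity
  have hπ0 : (Real.pi : ℂ) ≠ 0 := Complex.ofReal_ne_zero.2 Real.pi_ne_zero
  set k : ℝ → ℂ := fun u => (B ^ (1 / 2 : ℂ))⁻¹ * Complex.exp (-(Real.pi / B) * u ^ 2) with hk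
  set a : ℝ := Real.pi / (5 * r ^ 2) with ha
  have ha0 : 0 < a := by positivity
  have hkc : Continuous k := by rw [hk]; fun_prop
  have hkb : ∀ u, ‖k u‖ ≤ r⁻¹ * Real.exp (-a * u ^ 2) := fun u => by
    rw [hk]
    simp only
    rw [norm_mul, norm_inv, show (1 / 2 : ℂ) = ((1 / 2 : ℝ) : ℂ) by push_cast; rfl,
      Complex.norm_cpow_real, Complex.norm_exp, ← Real.sqrt_eq_rpow]
    refine mul_le_mul (inv_anti₀ hr (Real.le_sqrt_of_sq_le ?_)) (Real.exp_le_exp.2 ?_)
      (by positivity) (by positivity)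
    · rw [← hBre]; exact Complex.re_le_norm B
    · rw [← Complex.ofReal_pow, Complex.mul_re, Complex.ofReal_im, mul_zero, sub_zero,
        Complex.ofReal_re, Complex.neg_re, hbre]
      refine mul_le_mul_of_nonneg_right (neg_le_neg ?_) (sq_nonneg u)
      have h1 : (t - t₀) ^ 2 ≤ (r ^ 2) ^ 2 := by rw [← sq_abs]; gcongr
      rw [ha, div_le_div_iff₀ (by positivity) (by positivity)]
      nlinarith [mul_le_mul_of_nonneg_left h1 Real.pi_pos.le]
  have hg : Integrable fun y : ℝ => r⁻¹ * Real.exp (-a * (y₀ - y) ^ 2) :=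
    ((integrable_exp_neg_mul_sq ha0).comp_sub_left y₀).const_mul _
  have hki : Integrable fun y => k (y₀ - y) :=
    hg.mono' (by fun_prop : Continuous fun y => k (y₀ - y)).aestronglyMeasurable
      (.of_forall fun y => hkb _)
  have e1 : ∀ η : ℝ, (Real.exp (-(Real.pi * r ^ 2 * η ^ 2)) : ℂ) * ph (y₀ * η + t * η ^ 2) =
      ∫ y, k (y₀ - y) * ph (y * η + t₀ * η ^ 2) := fun η => by
    have h1 := fourierIntegral_gaussian hb (-(2 * Real.pi * η))
    rw [div_div_cancel₀ hπ0] at h1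
    rw [← integral_sub_left_eq_self _ volume y₀]
    have h2 : ∀ x : ℝ, k (y₀ - (y₀ - x)) * ph ((y₀ - x) * η + t₀ * η ^ 2) =
        (B ^ (1 / 2 : ℂ))⁻¹ * ph (y₀ * η + t₀ * η ^ 2) *
          (Complex.exp (Complex.I * -(2 * Real.pi * η) * x) *
            Complex.exp (-(Real.pi / B) * x ^ 2)) := fun x => by
      rw [sub_sub_cancel, hk, show (y₀ - x) * η + t₀ * η ^ 2 = (y₀ * η + t₀ * η ^ 2) + -(x * η) by
        ring, Red.ph_add]
      have : ph (-(x * η)) = Complex.exp (Complex.I * -(2 * Real.pi * η) * x) := by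
        unfold ph; congr 1; push_cast; ring
      rw [this]; ring
    simp only [h2]
    rw [integral_const_mul, h1, mul_mul_mul_comm, inv_mul_cancel₀ (by simp [hB0]), one_mul,
      Complex.ofReal_exp, ph, ph, ← Complex.exp_add, ← Complex.exp_add]
    congr 1
    field_simp
    rw [hB]
    push_cast; ring
  have e2 : ∫ η, c η * (Real.exp (-(Real.pi * r ^ 2 * η ^ 2)) * ph (y₀ * η + t * η ^ 2)) =
      ∫ y, k (y₀ - y) * U1 t₀ c y := by
    simp only [e1, U1, ← integral_const_mul]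
    rw [integral_integral_swap]
    · exact integral_congr_ae (.of_forall fun y => integral_congr_ae (.of_forall fun η => by
        simp only; ring))
    · refine (hc.norm.mul_prod hki.norm).mono' ?_ (.of_forall fun p => ?_)
      · exact hc.1.comp_fst.mul (Continuous.aestronglyMeasurable
          ((hkc.comp (by fun_prop)).mul (Red.continuous_ph.comp (by fun_prop))))
      · simp only [Function.uncurry, norm_mul, Red.norm_ph, mul_one, le_refl]
  set ω : ℝ → ℝ := fun y => r⁻¹ * Real.exp (-a * (y₀ - y) ^ 2) with hω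
  have hω0 : ∀ y, 0 ≤ ω y := fun y => by positivity
  have hωc : Continuous ω := by rw [hω]; fun_prop
  have hU := continuous_U1 hc t₀
  have hi : ∀ n : ℕ, Integrable fun y => ω y * ‖U1 t₀ c y‖ ^ n := fun n =>
    hg.mul_bdd (c := (∫ η, ‖c η‖) ^ n) (hU.norm.pow n).aestronglyMeasurable (.of_forall fun y => by
      rw [norm_pow, norm_norm]; exact pow_le_pow_left₀ (norm_nonneg _) (norm_U1_le _ _ _) n)
  have s1 : ∀ y, √(ω y) ^ 2 = ω y := fun y => Real.sq_sqrt (hω0 y)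
  have s2 : ∀ y, (√(ω y) * ‖U1 t₀ c y‖) ^ 2 = ω y * ‖U1 t₀ c y‖ ^ 2 := fun y => by rw [mul_pow, s1]
  have s3 : ∀ y, √(ω y) * (√(ω y) * ‖U1 t₀ c y‖) = ω y * ‖U1 t₀ c y‖ ^ 1 := fun y => by
    rw [← mul_assoc, ← sq, s1, pow_one]
  have cs := St.integral_mul_le (μ := volume) (E := univ) (u := fun y => √(ω y))
    (v := fun y => √(ω y) * ‖U1 t₀ c y‖) (by simp only [s1]; exact hg.integrableOn)
    (by simp only [s2]; exact (hi 2).integrableOn) (by simp only [s3]; exact (hi 1).integrableOn)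
  simp only [s1, s2, s3, Measure.restrict_univ] at cs
  have hω1 : ∫ y, ω y ≤ 3 := by
    rw [hω, integral_const_mul,
      integral_sub_left_eq_self (fun x : ℝ => Real.exp (-a * x ^ 2)) volume y₀, integral_gaussian,
      ha, div_div_cancel₀ Real.pi_pos.ne', inv_mul_le_iff₀ hr]
    exact Real.sqrt_le_iff.2 ⟨by positivity, by nlinarith⟩
  have hI : 0 ≤ ∫ y, ω y * ‖U1 t₀ c y‖ ^ 2 := integral_nonneg fun y => by have := hω0 y; positivity
  have h3 : ‖∫ y, k (y₀ - y) * U1 t₀ c y‖ ^ 2 ≤ 3 * ∫ y, ω y * ‖U1 t₀ c y‖ ^ 2 := by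
    have h4 := (norm_integral_le_of_norm_le (hi 1) (f := fun y => k (y₀ - y) * U1 t₀ c y)
      (.of_forall fun y => by
        rw [norm_mul, pow_one]; exact mul_le_mul_of_nonneg_right (hkb _) (norm_nonneg _))).trans cs
    refine (pow_le_pow_left₀ (norm_nonneg _) h4 2).trans ?_
    rw [mul_pow, Real.sq_sqrt (integral_nonneg hω0), Real.sq_sqrt hI]
    exact mul_le_mul_of_nonneg_right hω1 hI
  rw [e2]
  refine (ENNReal.ofReal_le_ofReal h3).trans ?_
  rw [← integral_const_mul, ofReal_integral_eq_lintegral_ofReal ((hi 2).const_mul _)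
    (.of_forall fun y => by have := hω0 y; positivity)]
  refine lintegral_mono fun y => ENNReal.ofReal_le_ofReal ?_
  rw [← mul_assoc]
  refine mul_le_mul_of_nonneg_right ?_ (by positivity)
  have h5 : Real.exp (-a * (y₀ - y) ^ 2) ≤ 3 * Real.exp (-(|y₀ - y| / r)) := by
    refine le_trans (Real.exp_le_exp.2 (?_ : _ ≤ 1 + -(|y₀ - y| / r))) ?_
    · have h6 : a * (y₀ - y) ^ 2 = Real.pi / 5 * (|y₀ - y| / r) ^ 2 := by
        rw [ha, div_pow, sq_abs]; field_simp
      nlinarith [sq_nonneg (|y₀ - y| / r - 1), sq_nonneg (|y₀ - y| / r)]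
    · rw [Real.exp_add]
      exact mul_le_mul_of_nonneg_right (by linarith [Real.exp_one_lt_d9]) (by positivity)
  calc 3 * ω y ≤ 3 * (r⁻¹ * (3 * Real.exp (-(|y₀ - y| / r)))) := by simp only [hω]; gcongr
    _ = _ := by ring

/-- the coordinates `(η, ξ') ↦ (c₀ + η, ξ')` -/
noncomputable def cs (d : ℕ) (c₀ : ℝ) : ℝ × V d ≃ᵐ V (d + 1) :=
  ((MeasurableEquiv.addLeft c₀).prodCongr (MeasurableEquiv.toLp 2 (Fin d → ℝ)).symm).trans
    ((MeasurableEquiv.piFinSuccAbove (fun _ : Fin (d + 1) => ℝ) 0).symm.trans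
      (MeasurableEquiv.toLp 2 _))

lemma mp_cs (d : ℕ) (c₀ : ℝ) : MeasurePreserving (cs d c₀) volume volume :=
  ((measurePreserving_add_left volume c₀).prod (PiLp.volume_preserving_ofLp (Fin d))).trans
    ((volume_preserving_piFinSuccAbove (fun _ : Fin (d + 1) => ℝ) 0).symm.trans
      (PiLp.volume_preserving_toLp (Fin (d + 1))))

lemma cs_zero (c₀ : ℝ) (p : ℝ × V d) : cs d c₀ p 0 = c₀ + p.1 := rfl

lemma cs_succ (c₀ : ℝ) (p : ℝ × V d) (i : Fin d) : cs d c₀ p i.succ = p.2 i := rfl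

lemma norm_sq_cs (c₀ : ℝ) (p : ℝ × V d) : ‖cs d c₀ p‖ ^ 2 = (c₀ + p.1) ^ 2 + ‖p.2‖ ^ 2 := by
  simp only [EuclideanSpace.real_norm_sq_eq, Fin.sum_univ_succ, cs_zero, cs_succ]

lemma inner_cs (c₀ : ℝ) (x : V (d + 1)) (p : ℝ × V d) :
    ⟪x, cs d c₀ p⟫ = x 0 * (c₀ + p.1) + ⟪tl x, p.2⟫ := by
  simp only [PiLp.inner_apply, Fin.sum_univ_succ, cs_zero, cs_succ, tl, RCLike.inner_apply,
    conj_trivial, mul_comm]

theorem slice (d : ℕ) : SliceStmt d := by
  have hπ := Real.pi_pos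
  refine ⟨9 + 4 * Real.exp Real.pi ^ 2, by positivity, fun r T c₀ hr hT H hs1 hs2 => ?_⟩
  have hr0 : 0 < r := by linarith
  set K : Set (V (d + 1)) := {ξ | ‖ξ‖ ≤ 1 ∧ |ξ 0 - c₀| ≤ 1 / r} with hK
  have hKm : MeasurableSet K :=
    (measurableSet_le (f := fun ξ : V (d + 1) => ‖ξ‖) (by fun_prop) measurable_const).inter
      (measurableSet_le (f := fun ξ : V (d + 1) => |ξ 0 - c₀|) (by fun_prop) measurable_const)
  set h : V (d + 1) → ℂ := K.indicator H with hh
  have hhm : Measurable h := (Lp.stronglyMeasurable H).measurable.indicator hKm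
  have hhH : h =ᵐ[volume] H := by
    filter_upwards [hs1, hs2] with ξ h1 h2
    by_cases hξ : ξ ∈ K
    · exact indicator_of_mem hξ _
    · rw [hh, indicator_of_notMem hξ]
      rcases not_and_or.1 hξ with h3 | h3
      · exact (h1 (not_le.1 h3)).symm
      · exact (h2 (not_le.1 h3)).symm
  set f : ℝ × V d → ℂ := fun p => (((2 : ℝ) ^ (1 / 4 : ℝ) *
    Real.exp (Real.pi * r ^ 2 * p.1 ^ 2 - Real.pi * (c₀ + p.1) ^ 2) : ℝ) : ℂ) * h (cs d c₀ p) with hf
  have hfm : Measurable f := (by fun_prop : Measurable fun p : ℝ × V d => (((2 : ℝ) ^ (1 / 4 : ℝ) *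
    Real.exp (Real.pi * r ^ 2 * p.1 ^ 2 - Real.pi * (c₀ + p.1) ^ 2) : ℝ) : ℂ)).mul
      (hhm.comp (cs d c₀).measurable)
  have hf0 : ∀ p : ℝ × V d, 1 / r < |p.1| ∨ 1 < ‖p.2‖ → f p = 0 := fun p hp => by
    rw [hf]
    simp only
    rw [hh, indicator_of_notMem, mul_zero]
    rintro ⟨h1, h2⟩
    rw [cs_zero, add_sub_cancel_left] at h2
    have h3 := norm_sq_cs c₀ p
    rcases hp with hp | hp
    · linarith
    · nlinarith [sq_nonneg (c₀ + p.1), norm_nonneg (cs d c₀ p)]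
  have hfb : ∀ p, ‖f p‖ ≤ 2 * Real.exp Real.pi * ‖h (cs d c₀ p)‖ := fun p => by
    rcases lt_or_ge (1 / r) |p.1| with h1 | h1
    · rw [hf0 p (Or.inl h1), norm_zero]; positivity
    rw [hf, norm_mul, Complex.norm_real, Real.norm_of_nonneg (by positivity)]
    refine mul_le_mul_of_nonneg_right (mul_le_mul ?_ (Real.exp_le_exp.2 ?_) (by positivity)
      (by positivity)) (norm_nonneg _)
    · exact (Real.rpow_le_rpow_of_exponent_le one_le_two (by norm_num)).trans_eq (Real.rpow_one 2)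
    · rw [le_div_iff₀ hr0] at h1
      have h2 : (|p.1| * r) ^ 2 ≤ 1 := pow_le_one₀ (by positivity) h1
      rw [mul_pow, sq_abs] at h2
      nlinarith [mul_nonneg hπ.le (sq_nonneg (c₀ + p.1))]
  have hf2 : ∫⁻ p, ‖f p‖ₑ ^ 2 ≤ ENNReal.ofReal ((9 + 4 * Real.exp Real.pi ^ 2) * ‖H‖ ^ 2) := by
    calc _ ≤ ∫⁻ p, ENNReal.ofReal (9 + 4 * Real.exp Real.pi ^ 2) * ‖h (cs d c₀ p)‖ₑ ^ 2 := by
          refine lintegral_mono fun p => ?_
          rw [← ofReal_norm, ← ofReal_norm, ← ENNReal.ofReal_pow (norm_nonneg _),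
            ← ENNReal.ofReal_pow (norm_nonneg _), ← ENNReal.ofReal_mul (by positivity)]
          refine ENNReal.ofReal_le_ofReal ((pow_le_pow_left₀ (norm_nonneg _) (hfb p) 2).trans ?_)
          nlinarith [sq_nonneg ‖h (cs d c₀ p)‖]
      _ = _ := by
          rw [lintegral_const_mul' _ _ ENNReal.ofReal_ne_top,
            (mp_cs d c₀).lintegral_comp_emb (cs d c₀).measurableEmbedding fun ξ => ‖h ξ‖ₑ ^ 2,
            lintegral_congr_ae (hhH.mono fun ξ hξ => by simp only [hξ]; rfl), ← enorm_sq_L2,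
            ENNReal.ofReal_mul (by positivity), ENNReal.ofReal_pow (norm_nonneg _), ofReal_norm]
  obtain ⟨F, hFm, hF1, hF2, hF3⟩ := exists_curry hfm (ne_top_of_le_ne_top ENNReal.ofReal_ne_top hf2)
  rw [← hF3] at hf2
  have hF0 : ∀ η, 1 / r < |η| → F η = 0 := fun η hη => (hF1 η).elim
    (fun h1 => Lp.ext (h1.trans ((Filter.EventuallyEq.of_eq
      (funext fun ξ => hf0 (η, ξ) (Or.inl hη))).trans (Lp.coeFn_zero _ _ _).symm))) id
  have hFL : MemLp F 2 volume :=
    memLp_two_of_lintegral hFm.aestronglyMeasurable (ne_top_of_le_ne_top ENNReal.ofReal_ne_top hf2)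
  have hFi : Integrable F := by
    refine IntegrableOn.integrable_of_forall_notMem_eq_zero (s := Icc (-(1 / r)) (1 / r))
      ((hFL.restrict _).integrable one_le_two) fun η hη => hF0 η ?_
    exact not_le.1 fun h1 => hη (abs_le.1 h1)
  have hgi : ∀ t y, Integrable fun η => ph (y * η + t * η ^ 2) • F η := fun t y =>
    hFi.norm.mono' ((Red.continuous_ph.comp (by fun_prop)).aestronglyMeasurable.smul hFi.1)
      (.of_forall fun η => by rw [norm_smul, Red.norm_ph, one_mul])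
  set g : ℝ → ℝ → L2 d := fun t y => ∫ η, ph (y * η + t * η ^ 2) • F η with hg
  have hin : ∀ (φ : L2 d) t y, inner ℂ φ (g t y) = U1 t (fun η => inner ℂ φ (F η)) y := by
    intro φ t y
    rw [hg, ← integral_inner (hgi t y), U1]
    simp only [inner_smul_right, mul_comm]
  have hci : ∀ φ : L2 d, Integrable fun η => inner ℂ φ (F η) := fun φ => hFi.const_inner φ
  have hcL : ∀ φ : L2 d, MemLp (fun η => inner ℂ φ (F η)) 2 volume := fun φ => hFL.const_inner φ
  have hgc : ∀ t, Continuous (g t) := fun t =>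
    continuous_of_dominated (bound := fun η => ‖F η‖) (fun y => (hgi t y).1)
      (fun y => .of_forall fun η => by rw [norm_smul, Red.norm_ph, one_mul]) hFi.norm
      (.of_forall fun η => (Red.continuous_ph.comp (by fun_prop)).smul continuous_const)
  have hγ : Continuous (gam T 0 : Ph d → L2 d) :=
    (continuous_gam hT).comp (f := fun β : Ph d => ((0 : ℝ), β)) (by fun_prop)
  have hco : ∀ u : L2 d, ∫⁻ β, ‖co T 0 u β‖ₑ ^ 2 = ‖u‖ₑ ^ 2 := fun u => by
    rw [← ofReal_norm u, ← ENNReal.ofReal_pow (norm_nonneg _), ← integral_co_sq hT 0 u,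
      ofReal_integral_eq_lintegral_ofReal (Iso.integrable_co_sq hT 0 u)
        (.of_forall fun _ => by positivity)]
    simp only [← ofReal_norm, ENNReal.ofReal_pow (norm_nonneg _)]
  have hjm : StronglyMeasurable fun p : Ph d × ℝ => inner ℂ (gam T 0 p.1) (F p.2) :=
    (hγ.stronglyMeasurable.comp_measurable measurable_fst).inner
      (hFm.comp_measurable measurable_snd)
  have hlast : ∫⁻ β : Ph d, ∫⁻ η, ‖co T 0 (F η) β‖ₑ ^ 2 ≤
      ENNReal.ofReal ((9 + 4 * Real.exp Real.pi ^ 2) * ‖H‖ ^ 2) := by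
    rw [lintegral_lintegral_swap (hjm.enorm.pow_const 2).aemeasurable]
    simpa only [hco] using hf2
  refine ⟨g, fun β η => co T 0 (F η) β, hgc, fun t y => ?_, fun t => ?_, fun z t₀ ht => ?_,
    fun t y β => hin _ t y, fun β => hcL _, fun β η hη => by simp [co, hF0 η hη], ?_, ?_⟩
  · set s : Set (V d) := {ξ | 1 < ‖ξ‖} with hs
    have hsm : MeasurableSet s := measurableSet_lt measurable_const (by fun_prop)
    set P := LpToLpRestrictCLM (V d) ℂ ℂ volume 2 s with hP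
    have h1 : ∀ η, P (F η) = 0 := fun η => (hF1 η).elim (fun h1 => Lp.ext (by
      filter_upwards [LpToLpRestrictCLM_coeFn ℂ s (F η), ae_restrict_of_ae h1, ae_restrict_mem hsm,
        Lp.coeFn_zero ℂ 2 (volume.restrict s)] with ξ a1 a2 a3 a4
      rw [a1, a2, a4, hf0 (η, ξ) (Or.inr a3)]; rfl)) fun h1 => by rw [h1, map_zero]
    have h2 : P (g t y) = 0 := by
      rw [hg, ← P.integral_comp_comm (hgi t y)]
      simp only [map_smul, h1, smul_zero, integral_zero]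
    refine (ae_restrict_iff' hsm).1 ?_
    filter_upwards [LpToLpRestrictCLM_coeFn ℂ s (g t y), Lp.coeFn_zero ℂ 2 (volume.restrict s)]
      with ξ a1 a2
    rw [← a1, ← hP, h2, a2]; rfl
  · simp only [ENNReal.ofReal_pow (norm_nonneg _), ofReal_norm, ← hco]
    rw [lintegral_lintegral_swap]
    · refine le_trans (le_of_eq (lintegral_congr fun β => ?_)) hlast
      simp only [co, hin]
      exact lintegral_U1 (hci _) (hcL _) t
    · exact (((hγ.comp continuous_snd).inner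
        ((hgc t).comp continuous_fst)).measurable.enorm.pow_const 2).aemeasurable
  · have e : inner ℂ (pt z) H = ph (z.1 0 * c₀ + z.2 * c₀ ^ 2) * ∫ η, inner ℂ (pt (pr z)) (F η) *
        (Real.exp (-(Real.pi * r ^ 2 * η ^ 2)) * ph (yc c₀ z * η + z.2 * η ^ 2)) := by
      have i1 : Integrable fun ξ => conj (gamF 1 z.2 (z.1, 0) ξ) * h ξ :=
        (memLp_gamF one_pos z.2 (z.1, 0)).star.integrable_mul ((Lp.memLp H).ae_eq hhH.symm)
      have i2 : Integrable (fun p => conj (gamF 1 z.2 (z.1, 0) (cs d c₀ p)) * h (cs d c₀ p))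
          (volume.prod volume) := (mp_cs d c₀).integrable_comp_of_integrable i1
      rw [pt, ← co, co_eq one_pos, integral_congr_ae (g := fun ξ => conj (gamF 1 z.2 (z.1, 0) ξ) * h ξ)
        (hhH.mono fun ξ hξ => by simp only [hξ]), ← (mp_cs d c₀).integral_comp',
        Measure.volume_eq_prod, integral_prod _ i2,
        ← integral_const_mul]
      refine integral_congr_ae (hF2.mono fun η hη => ?_)
      simp only
      rw [pt, ← co, co_eq one_pos, ← integral_mul_const, ← integral_const_mul]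
      refine integral_congr_ae (hη.mono fun ξ hξ => ?_)
      simp only
      rw [hξ, hf, conj_gamF, conj_gamF]
      simp only [sub_zero, norm_sq_cs, inner_cs, pr, yc, one_pow, mul_one, Nat.cast_add,
        Nat.cast_one, add_div, Real.rpow_add two_pos, Complex.ofReal_mul, Complex.ofReal_exp, ph]
      have : ∀ a b e₁ e₂ e₃ e₄ e₅ e₆ u : ℂ, e₁ = e₂ + e₃ + e₄ + e₅ + e₆ →
          a * b * Complex.exp e₁ * u = Complex.exp e₂ * (a * Complex.exp e₃ *
            (b * Complex.exp e₄ * u) * (Complex.exp e₅ * Complex.exp e₆)) := by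
        intro a b e₁ e₂ e₃ e₄ e₅ e₆ u he
        simp only [he, Complex.exp_add]; ring
      refine this _ _ _ _ _ _ _ _ _ ?_
      push_cast; ring
    rw [e, norm_mul, Red.norm_ph, one_mul]
    refine (one_dim hr0 ht (hci _) _).trans (lintegral_mono fun y => ENNReal.ofReal_le_ofReal ?_)
    rw [hin]
    gcongr
    exact le_add_of_nonneg_right (by positivity)
  · exact (hjm.norm.pow 2).integral_prod_right'.measurable
  · refine le_trans (le_of_eq (lintegral_congr fun β => ?_)) hlast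
    simp only [co]
    rw [ofReal_integral_eq_lintegral_ofReal ((memLp_two_iff_integrable_sq_norm (hcL _).1).1 (hcL _))
      (.of_forall fun _ => by positivity)]
    simp only [← ofReal_norm, ENNReal.ofReal_pow (norm_nonneg _)]

end Crest.Agent.N76.II.B
end

-- ▼ part N76/II/B/Col
section

/-! # Row 76, part II D: column densities and the hypotheses of `St` (helper8). -/

set_option autoImplicit false

open MeasureTheory Set Metric
open scoped ENNReal RealInnerProductSpace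

namespace Crest.Agent.N76.II.B

open Crest.Agent.N76.Red (V ph)
open Crest.Agent.N76.G

/-! ### integration helpers -/

lemma sum_lintegral_le {α κ : Type*} [MeasurableSpace α] (μ : Measure α) (s : Finset κ)
    (f : κ → α → ℝ≥0∞) : ∑ k ∈ s, ∫⁻ a, f k a ∂μ ≤ ∫⁻ a, ∑ k ∈ s, f k a ∂μ := by
  classical
  induction s using Finset.induction_on with
  | empty => simp
  | insert a s ha ih =>
    simp only [Finset.sum_insert ha]
    exact (add_le_add_right ih _).trans (le_lintegral_add _ _)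

lemma ofReal_integral_le {α : Type*} [MeasurableSpace α] (μ : Measure α) {f : α → ℝ}
    (hf : ∀ a, 0 ≤ f a) : ENNReal.ofReal (∫ a, f a ∂μ) ≤ ∫⁻ a, ENNReal.ofReal (f a) ∂μ := by
  by_cases h : Integrable f μ
  · exact (ofReal_integral_eq_lintegral_ofReal h (.of_forall hf)).le
  · rw [integral_undef h]; simp

lemma lintegral_cells {r : ℝ} (hr : 0 < r) (f : ℤ → ℝ≥0∞) (a l : ℝ) :
    ∫⁻ y in Icc a (a + l), f ⌊y / r⌋ ≤
      ∑ m ∈ Finset.Icc ⌊a / r⌋ ⌊(a + l) / r⌋, ENNReal.ofReal r * f m := by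
  rw [← lintegral_indicator measurableSet_Icc]
  calc _ ≤ ∫⁻ y, ∑ m ∈ Finset.Icc ⌊a / r⌋ ⌊(a + l) / r⌋,
        (Ico ((m : ℝ) * r) ((m + 1) * r)).indicator (fun _ => f m) y := by
        refine lintegral_mono fun y => ?_
        by_cases hy : y ∈ Icc a (a + l)
        · rw [indicator_of_mem hy]
          have hm : ⌊y / r⌋ ∈ Finset.Icc ⌊a / r⌋ ⌊(a + l) / r⌋ :=
            Finset.mem_Icc.2 ⟨Int.floor_mono (by gcongr; exact hy.1),
              Int.floor_mono (by gcongr; exact hy.2)⟩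
          refine le_trans (le_of_eq ?_) (Finset.single_le_sum (fun _ _ => zero_le) hm)
          rw [indicator_of_mem]
          constructor
          · rw [← le_div_iff₀ hr]; exact Int.floor_le _
          · rw [← div_lt_iff₀ hr]; exact Int.lt_floor_add_one _
        · rw [indicator_of_notMem hy]; exact zero_le
    _ = _ := by
        rw [lintegral_finsetSum _ fun m _ => measurable_const.indicator measurableSet_Ico]
        refine Finset.sum_congr rfl fun m _ => ?_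
        rw [lintegral_indicator measurableSet_Ico, setLIntegral_const, Real.volume_Ico, mul_comm]
        congr 2; ring

lemma jensen_rpow {f : ℝ → ℝ} (hf : Continuous f) (h0 : ∀ s, 0 ≤ f s) {a b q : ℝ} (hab : a < b)
    (hq : 1 ≤ q) : ((∫ s in a..b, f s ^ (1 / q)) / (b - a)) ^ q ≤ (∫ s in a..b, f s) / (b - a) := by
  have hq0 : 0 < q := by linarith
  have hba : 0 < b - a := by linarith
  have hc : Continuous fun s => f s ^ (1 / q) :=
    hf.rpow_const fun _ => Or.inr (by positivity)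
  have h := (Real.concaveOn_rpow (p := 1 / q) (by positivity)
    (by rw [div_le_one hq0]; exact hq)).le_map_set_average (μ := volume) (t := Ioc a b) (f := f)
    (continuousOn_id.rpow_const fun _ _ => Or.inr (by positivity)) isClosed_Ici
    (by simp [hab]) (by simp) (.of_forall h0) (hf.integrableOn_Icc.mono_set Ioc_subset_Icc_self)
    (hc.integrableOn_Icc.mono_set Ioc_subset_Icc_self)
  rw [setAverage_eq, setAverage_eq, Real.volume_real_Ioc_of_le hab.le, smul_eq_mul, smul_eq_mul,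
    ← intervalIntegral.integral_of_le hab.le, ← intervalIntegral.integral_of_le hab.le,
    ← div_eq_inv_mul, ← div_eq_inv_mul] at h
  have h1 : 0 ≤ (∫ s in a..b, f s) / (b - a) :=
    div_nonneg (intervalIntegral.integral_nonneg hab.le fun s _ => h0 s) hba.le
  have h2 : 0 ≤ (∫ s in a..b, f s ^ (1 / q)) / (b - a) :=
    div_nonneg (intervalIntegral.integral_nonneg hab.le fun s _ => Real.rpow_nonneg (h0 s) _) hba.le
  calc _ ≤ (((∫ s in a..b, f s) / (b - a)) ^ (1 / q)) ^ q := Real.rpow_le_rpow h2 h hq0.le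
    _ = _ := by rw [← Real.rpow_mul h1, one_div_mul_cancel hq0.ne', Real.rpow_one]

lemma sum_windows_le {f : ℝ → ℝ} (hf : Continuous f) (h0 : ∀ s, 0 ≤ f s) {L R : ℝ} (hL : 0 < L)
    (hLR : L ≤ R) (K : Finset ℤ) (hK : ∀ k ∈ K, |(k : ℝ) * L| ≤ 2 * R) :
    ∑ k ∈ K, ∫ s in ((k - 1) * L)..((k + 2) * L), f s ≤ 3 * ∫ s in (-(4 * R))..(4 * R), f s := by
  classical
  have hi : ∀ a b : ℝ, Integrable ((Ioc a b).indicator f) := fun a b =>
    (integrable_indicator_iff measurableSet_Ioc).2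
      (hf.integrableOn_Icc.mono_set Ioc_subset_Icc_self)
  have e1 : ∀ a b : ℝ, a ≤ b → ∫ s in a..b, f s = ∫ s, (Ioc a b).indicator f s := fun a b h => by
    rw [intervalIntegral.integral_of_le h, integral_indicator measurableSet_Ioc]
  rw [e1 _ _ (by linarith), ← integral_const_mul,
    Finset.sum_congr rfl fun k _ => e1 _ _ (by nlinarith),
    ← integral_finsetSum _ fun k _ => hi _ _]
  refine integral_mono (integrable_finsetSum _ fun k _ => hi _ _) ((hi _ _).const_mul _)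
    fun s => ?_
  set G := K.filter fun k : ℤ => s ∈ Ioc (((k : ℝ) - 1) * L) ((k + 2) * L) with hG
  have h1 : ∑ k ∈ K, (Ioc (((k : ℝ) - 1) * L) ((k + 2) * L)).indicator f s = G.card * f s := by
    simp only [indicator_apply]
    rw [← Finset.sum_filter, Finset.sum_const, nsmul_eq_mul]
  have h2 : G.card ≤ 3 := by
    have : G ⊆ Finset.Ico (⌈s / L⌉ - 2) (⌈s / L⌉ + 1) := by
      intro k hk
      obtain ⟨h3, h4⟩ := (Finset.mem_filter.1 hk).2
      rw [← lt_div_iff₀ hL] at h3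
      rw [← div_le_iff₀ hL] at h4
      have h5 : k - 1 < ⌈s / L⌉ := Int.lt_ceil.2 (by push_cast; exact h3)
      have h6 : ⌈s / L⌉ ≤ k + 2 := Int.ceil_le.2 (by push_cast; exact h4)
      exact Finset.mem_Ico.2 ⟨by omega, by omega⟩
    have h7 := Finset.card_le_card this
    rw [Int.card_Ico] at h7
    omega
  simp only
  rw [h1]
  by_cases hs : s ∈ Ioc (-(4 * R)) (4 * R)
  · rw [indicator_of_mem hs]
    have : (G.card : ℝ) ≤ 3 := by exact_mod_cast h2
    exact mul_le_mul_of_nonneg_right this (h0 s)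
  · have : G = ∅ := by
      refine Finset.eq_empty_of_forall_notMem fun k hk => hs ?_
      obtain ⟨h3, h4, h5⟩ := Finset.mem_filter.1 hk
      have h6 := abs_le.1 (hK k h3)
      constructor <;> nlinarith
    rw [this, indicator_of_notMem hs]; simp

variable {d : ℕ}

/-! ### densities -/

section Dens

variable {ι : Type*} (X : Finset ι) (p : ι → V d × ℝ)

lemma continuous_vv (w : ι → ℝ) (r : ℝ) : Continuous (vv X p w r) :=
  (continuous_dens X p w r).rpow_const fun _ => Or.inr (by positivity)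

lemma continuous_cm (l A : ℝ) : Continuous (cm X p l A) :=
  continuous_const.min (continuous_dens X p _ l)

lemma cm_nonneg {l A : ℝ} (hl : 0 < l) (hA : 0 ≤ A) (u : V d × ℝ) : 0 ≤ cm X p l A u :=
  le_min hA (dens_nonneg X p (fun _ _ => zero_le_one) hl u)

lemma cm_lip {l A : ℝ} (hl : 0 < l) (hA : 0 ≤ A) {u u' : V d × ℝ} (h : dist u u' ≤ l) :
    cm X p l A u ≤ Real.exp 1 * cm X p l A u' := by
  have he : 1 ≤ Real.exp 1 := Real.one_le_exp zero_le_one
  have h1 : dens X p (fun _ => 1) l u ≤ Real.exp 1 * dens X p (fun _ => 1) l u' := by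
    unfold dens
    rw [← mul_div_assoc, Finset.mul_sum]
    refine div_le_div_of_nonneg_right (Finset.sum_le_sum fun i _ => ?_) (by positivity)
    rw [one_mul, one_mul, ← Real.exp_add]
    refine Real.exp_le_exp.2 ?_
    have h2 := dist_triangle_left u' (p i) u
    have h3 : dist u' (p i) / l ≤ 1 + dist u (p i) / l := by
      rw [div_le_iff₀ hl, add_mul, div_mul_cancel₀ _ hl.ne']; linarith
    linarith
  unfold cm
  rw [mul_min_of_nonneg _ _ (by linarith)]
  exact min_le_min (by nlinarith) h1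

end Dens

lemma continuous_line {W : V d × ℝ → ℝ} (hW : Continuous W) :
    Continuous fun q : Ph d × ℝ => W (pos q.2 q.1, q.2) := by
  unfold pos; fun_prop

lemma continuous_xray {W : V d × ℝ → ℝ} (hW : Continuous W) (a b : ℝ) :
    Continuous (xray W a b) :=
  intervalIntegral.continuous_parametric_intervalIntegral_of_continuous'
    (f := fun β t => W (pos t β, t)) (continuous_line hW) a b

lemma continuous_line' {W : V d × ℝ → ℝ} (hW : Continuous W) (β : Ph d) :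
    Continuous fun t : ℝ => W (pos t β, t) := by
  unfold pos; fun_prop

lemma xray_nonneg {W : V d × ℝ → ℝ} (h0 : ∀ u, 0 ≤ W u) {a b : ℝ} (hab : a ≤ b) (β : Ph d) :
    0 ≤ xray W a b β :=
  intervalIntegral.integral_nonneg hab fun _ _ => h0 _

lemma xray_le {W : V d × ℝ → ℝ} (hW : Continuous W) {A : ℝ} (h : ∀ u, W u ≤ A) {a b : ℝ}
    (hab : a ≤ b) (β : Ph d) : xray W a b β ≤ (b - a) * A := by
  have := intervalIntegral.integral_mono_on hab
    ((continuous_line' hW β).intervalIntegrable (μ := volume) a b)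
    (continuous_const.intervalIntegrable (μ := volume) a b) fun t _ => h (pos t β, t)
  simpa [xray] using this

lemma xray_cm_lip {ι : Type*} (X : Finset ι) (p : ι → V d × ℝ) {l A a b : ℝ} (hl : 0 < l)
    (hA : 0 ≤ A) (hab : a ≤ b) {β β' : Ph d} (h : ∀ s ∈ Icc a b, ‖pos s β - pos s β'‖ ≤ l) :
    xray (cm X p l A) a b β ≤ Real.exp 1 * xray (cm X p l A) a b β' := by
  unfold xray
  rw [← intervalIntegral.integral_const_mul]
  refine intervalIntegral.integral_mono_on hab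
    ((continuous_line' (continuous_cm X p l A) β).intervalIntegrable a b)
    (((continuous_line' (continuous_cm X p l A) β').intervalIntegrable a b).const_mul _)
    fun s hs => cm_lip X p hl hA ?_
  rw [Prod.dist_eq, dist_self, dist_eq_norm]
  exact max_le (h s hs) hl.le

/-- **the hypothesis of `St`**: the weights of the slices have bounded `L^q` norms on intervals -/
lemma col_bound {A : ℝ} {X : Finset (V (d + 1) × ℝ)} {c₀ r l Lp L : ℝ} {D : ℕ}
    (hA : ∀ (E : Finset (V (d + 1) × ℝ)) (a : ℝ) (u : V d × ℝ), E ⊆ X →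
      (∀ z ∈ E, a ≤ yc c₀ z ∧ yc c₀ z ≤ a + Lp) → dens E pr (fun _ => 1) Lp u ≤ A)
    (hr : 0 < r) (hl : 0 ≤ l) (hL : 0 < L) (hLp : l + (2 * D + 2) * r ≤ Lp)
    (Z : ℤ → Finset (V (d + 1) × ℝ)) (hZ : ∀ m, Z m ⊆ X)
    (hZm : ∀ m, ∀ z ∈ Z m, |mi r c₀ z - m| ≤ D) (t : ℝ) (β : Ph d) (y₀ : ℝ) :
    ∫⁻ y in Icc y₀ (y₀ + l), ENNReal.ofReal
        ((xray (vv (Z ⌊y / r⌋) pr (ww r c₀ ⌊y / r⌋) Lp) t (t + 3 * L) β / L) ^ (((d : ℝ) + 2) / 2)) ≤
      ENNReal.ofReal (3 ^ (((d : ℝ) + 2) / 2) * (xray (cm X pr Lp A) t (t + 3 * L) β / L)) := by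
  classical
  set q : ℝ := ((d : ℝ) + 2) / 2 with hq
  have hq1 : 1 ≤ q := by rw [hq]; linarith [Nat.cast_nonneg (α := ℝ) d]
  have hLp0 : 0 < Lp := by
    have : 0 < (2 * (D : ℝ) + 2) * r := by positivity
    linarith
  have hab : t ≤ t + 3 * L := by linarith
  have hd0 : ∀ m u, 0 ≤ dens (Z m) pr (ww r c₀ m) Lp u := fun m u =>
    dens_nonneg _ pr (fun z _ => ww_nonneg hr c₀ m z) hLp0 u
  set s := Finset.Icc ⌊y₀ / r⌋ ⌊(y₀ + l) / r⌋ with hs
  have h1 : ∀ m, (xray (vv (Z m) pr (ww r c₀ m) Lp) t (t + 3 * L) β / L) ^ q ≤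
      3 ^ q / L * xray (dens (Z m) pr (ww r c₀ m) Lp) t (t + 3 * L) β := by
    intro m
    have h2 := jensen_rpow (continuous_line' (continuous_dens (Z m) pr (ww r c₀ m) Lp) β)
      (fun s => hd0 m _) (a := t) (b := t + 3 * L) (by linarith) hq1
    have h3 : xray (vv (Z m) pr (ww r c₀ m) Lp) t (t + 3 * L) β / L =
        3 * ((∫ s in t..(t + 3 * L), dens (Z m) pr (ww r c₀ m) Lp (pos s β, s) ^ (1 / q)) /
          (t + 3 * L - t)) := by
      have : 2 / ((d : ℝ) + 2) = 1 / q := by rw [hq]; field_simp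
      unfold xray vv
      rw [this, add_sub_cancel_left]
      field_simp
    have h4 := xray_nonneg (hd0 m) hab β
    rw [h3, Real.mul_rpow (by norm_num) (div_nonneg (intervalIntegral.integral_nonneg hab
      fun s _ => Real.rpow_nonneg (hd0 m _) _) (by linarith))]
    calc _ ≤ 3 ^ q * (xray (dens (Z m) pr (ww r c₀ m) Lp) t (t + 3 * L) β / (t + 3 * L - t)) :=
          mul_le_mul_of_nonneg_left h2 (by positivity)
      _ ≤ 3 ^ q * (xray (dens (Z m) pr (ww r c₀ m) Lp) t (t + 3 * L) β / L) := by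
          gcongr; linarith
      _ = _ := by ring
  have h5 : ∀ u, ∑ m ∈ s, r * dens (Z m) pr (ww r c₀ m) Lp u ≤ cm X pr Lp A u := by
    intro u
    set E := X.filter fun z => ((⌊y₀ / r⌋ : ℝ) - D) * r ≤ yc c₀ z ∧
      yc c₀ z ≤ ((⌊y₀ / r⌋ : ℝ) - D) * r + Lp with hE
    have hZE : ∀ m ∈ s, Z m ⊆ E := by
      intro m hm z hz
      obtain ⟨h6, h7⟩ := Finset.mem_Icc.1 hm
      obtain ⟨h8, h9⟩ := abs_le.1 (hZm m z hz)
      obtain ⟨h10, h11⟩ := mi_bounds hr c₀ z
      have h12 : ((⌊y₀ / r⌋ : ℝ) - D) ≤ mi r c₀ z := by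
        exact_mod_cast (by omega : ⌊y₀ / r⌋ - D ≤ mi r c₀ z)
      have h13 : (mi r c₀ z : ℝ) ≤ ⌊(y₀ + l) / r⌋ + D := by
        exact_mod_cast (by omega : mi r c₀ z ≤ ⌊(y₀ + l) / r⌋ + D)
      have h14 : (⌊(y₀ + l) / r⌋ : ℝ) * r ≤ y₀ + l := by
        rw [← le_div_iff₀ hr]; exact Int.floor_le _
      have h15 : y₀ < (⌊y₀ / r⌋ + 1) * r := by
        rw [← div_lt_iff₀ hr]; exact Int.lt_floor_add_one _
      refine Finset.mem_filter.2 ⟨hZ m hz, by nlinarith, by nlinarith⟩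
    have h16 : ∑ m ∈ s, r * dens (Z m) pr (ww r c₀ m) Lp u ≤ dens E pr (fun _ => 1) Lp u := by
      calc _ ≤ ∑ m ∈ s, r * dens E pr (ww r c₀ m) Lp u := by
            refine Finset.sum_le_sum fun m hm => mul_le_mul_of_nonneg_left ?_ hr.le
            unfold dens
            refine div_le_div_of_nonneg_right (Finset.sum_le_sum_of_subset_of_nonneg (hZE m hm)
              fun z _ _ => mul_nonneg (ww_nonneg hr c₀ m z) (Real.exp_pos _).le) (by positivity)
        _ = (∑ z ∈ E, (r * ∑ m ∈ s, ww r c₀ m z) * Real.exp (-(dist u (pr z) / Lp))) /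
              Lp ^ (d + 1) := by
            unfold dens
            simp only [← mul_div_assoc, ← Finset.sum_div, Finset.mul_sum, Finset.sum_mul]
            rw [Finset.sum_comm]
            simp only [mul_assoc]
        _ ≤ _ := by
            unfold dens
            gcongr with z hz
            calc r * ∑ m ∈ s, ww r c₀ m z ≤ r * (1 / r) := by gcongr; exact sum_ww_le hr c₀ s z
              _ = 1 := by field_simp
    refine le_min (h16.trans (hA E _ u (Finset.filter_subset _ _)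
      fun z hz => (Finset.mem_filter.1 hz).2)) (h16.trans ?_)
    unfold dens
    refine div_le_div_of_nonneg_right (Finset.sum_le_sum_of_subset_of_nonneg
      (Finset.filter_subset _ _) fun z _ _ => by positivity) (by positivity)
  refine (lintegral_cells hr (fun m => ENNReal.ofReal
    ((xray (vv (Z m) pr (ww r c₀ m) Lp) t (t + 3 * L) β / L) ^ q)) y₀ l).trans ?_
  calc _ ≤ ∑ m ∈ s, ENNReal.ofReal
        (r * (3 ^ q / L * xray (dens (Z m) pr (ww r c₀ m) Lp) t (t + 3 * L) β)) := by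
        refine Finset.sum_le_sum fun m _ => ?_
        rw [ENNReal.ofReal_mul hr.le]
        gcongr
        exact h1 m
    _ = ENNReal.ofReal (∑ m ∈ s,
        r * (3 ^ q / L * xray (dens (Z m) pr (ww r c₀ m) Lp) t (t + 3 * L) β)) := by
        rw [ENNReal.ofReal_sum_of_nonneg fun m _ => by
          have := xray_nonneg (hd0 m) hab β
          positivity]
    _ ≤ _ := by
        refine ENNReal.ofReal_le_ofReal ?_
        have h6 : ∑ m ∈ s, r * xray (dens (Z m) pr (ww r c₀ m) Lp) t (t + 3 * L) β ≤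
            xray (cm X pr Lp A) t (t + 3 * L) β := by
          have hi : ∀ m, IntervalIntegrable
              (fun s => r * dens (Z m) pr (ww r c₀ m) Lp (pos s β, s)) volume t (t + 3 * L) :=
            fun m => ((continuous_line' (continuous_dens _ _ _ _) β).intervalIntegrable _ _).const_mul _
          unfold xray
          simp only [← intervalIntegral.integral_const_mul]
          rw [← intervalIntegral.integral_finsetSum fun m _ => hi m]
          refine intervalIntegral.integral_mono_on hab ?_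
            ((continuous_line' (continuous_cm X pr Lp A) β).intervalIntegrable _ _)
            fun s _ => h5 _
          exact (continuous_finsetSum _ fun m _ => continuous_const.mul
            (continuous_line' (continuous_dens _ _ _ _) β)).intervalIntegrable _ _
        calc _ = 3 ^ q / L * ∑ m ∈ s,
              r * xray (dens (Z m) pr (ww r c₀ m) Lp) t (t + 3 * L) β := by
              rw [Finset.mul_sum]; exact Finset.sum_congr rfl fun m _ => by ring
          _ ≤ 3 ^ q / L * xray (cm X pr Lp A) t (t + 3 * L) β := by gcongr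
          _ = _ := by ring

end Crest.Agent.N76.II.B
end

-- ▼ part N76/II/B/Est
section

/-! # Row 76, part II D: the lossless estimate for the regular points (helper8). -/

set_option autoImplicit false

open MeasureTheory Set Metric
open scoped ENNReal RealInnerProductSpace

namespace Crest.Agent.N76.II.B

open Crest.Agent.N76.Red (V ph)
open Crest.Agent.N76.G

variable {d : ℕ}

lemma far_le {T : ℝ} (hT : 1 ≤ T) (g : L2 d) (hg : ∀ᵐ ξ : V d, 1 < ‖ξ‖ → g ξ = 0) :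
    ‖loc T 0 {β : Ph d | 2 < ‖β.2‖} g‖ ^ 2 ≤ 2 ^ d * Real.exp (-T) * ‖g‖ ^ 2 := by
  have hT0 : 0 < T := by linarith
  have hT2 : 0 < T / 2 := by linarith
  have hpi := Real.pi_gt_three
  have hm : MeasurableSet {β : Ph d | 2 < ‖β.2‖} :=
    (isOpen_lt continuous_const (by fun_prop)).measurableSet
  refine (norm_loc_sq_le hT0 0 hm g).trans ?_
  have h1 := (Iso.integrable_co_sq hT0 0 g).indicator hm
  have h2 := Iso.integrable_co_sq hT2 0 g
  rw [← integral_indicator hm, ← integral_co_sq hT2 0 g]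
  rw [Measure.volume_eq_prod] at h1 h2 ⊢
  rw [integral_prod_symm _ h1, integral_prod_symm _ h2, ← integral_const_mul]
  refine integral_mono h1.integral_prod_right (h2.integral_prod_right.const_mul _) fun ζ => ?_
  simp only
  by_cases hζ : 2 < ‖ζ‖
  · have e : ∀ y : V d, ({β : Ph d | 2 < ‖β.2‖}).indicator (fun β => ‖co T 0 g β‖ ^ 2) (y, ζ) =
        ‖co T 0 g (y, ζ)‖ ^ 2 := fun y => indicator_of_mem (by exact hζ) _
    simp only [e]
    rw [(integral_co_sq_fst hT0 0 g ζ).2, (integral_co_sq_fst hT2 0 g ζ).2]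
    have e2 : (2 * T ^ 2) ^ ((d : ℝ) / 2) = 2 ^ d * (2 * (T / 2) ^ 2) ^ ((d : ℝ) / 2) := by
      have : 2 * T ^ 2 = 2 ^ (2 : ℝ) * (2 * (T / 2) ^ 2) := by rw [Real.rpow_two]; ring
      rw [this, Real.mul_rpow (by positivity) (by positivity), ← Real.rpow_mul (by norm_num),
        show (2 : ℝ) * ((d : ℝ) / 2) = d by ring, Real.rpow_natCast]
    have h3 : ∫ ξ, Real.exp (-2 * Real.pi * T ^ 2 * ‖ξ - ζ‖ ^ 2) * ‖g ξ‖ ^ 2 ≤
        Real.exp (-T) * ∫ ξ, Real.exp (-2 * Real.pi * (T / 2) ^ 2 * ‖ξ - ζ‖ ^ 2) * ‖g ξ‖ ^ 2 := by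
      rw [← integral_const_mul]
      refine integral_mono_of_nonneg (.of_forall fun ξ => by positivity)
        (Integrable.const_mul ?_ _) ?_
      · refine (Iso.integrable_norm_sq_L2 g).bdd_mul (c := 1)
          (Continuous.aestronglyMeasurable (by fun_prop)) (.of_forall fun ξ => ?_)
        rw [Real.norm_of_nonneg (Real.exp_pos _).le, Real.exp_le_one_iff]
        have : 0 ≤ 2 * Real.pi * (T / 2) ^ 2 * ‖ξ - ζ‖ ^ 2 := by positivity
        linarith
      · filter_upwards [hg] with ξ hξ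
        by_cases h : 1 < ‖ξ‖
        · simp [hξ h]
        · rw [← mul_assoc, ← Real.exp_add]
          gcongr
          have h4 : 1 ≤ ‖ξ - ζ‖ := by
            have := norm_sub_norm_le ζ ξ
            rw [norm_sub_rev] at this
            linarith
          have h5 : 1 ≤ ‖ξ - ζ‖ ^ 2 := one_le_pow₀ h4
          have h6 : T ≤ T ^ 2 * ‖ξ - ζ‖ ^ 2 := by nlinarith
          nlinarith
    rw [e2]
    calc _ ≤ 2 ^ d * (2 * (T / 2) ^ 2) ^ ((d : ℝ) / 2) * (Real.exp (-T) *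
          ∫ ξ, Real.exp (-2 * Real.pi * (T / 2) ^ 2 * ‖ξ - ζ‖ ^ 2) * ‖g ξ‖ ^ 2) := by gcongr
      _ = _ := by ring
  · have e : ∀ y : V d, ({β : Ph d | 2 < ‖β.2‖}).indicator (fun β => ‖co T 0 g β‖ ^ 2) (y, ζ) =
        0 := fun y => indicator_of_notMem (by exact hζ) _
    simp only [e, integral_zero]
    exact mul_nonneg (by positivity) (integral_nonneg fun _ => by positivity)

lemma inner_pt_sq_le (z : V d × ℝ) (g : L2 d) : ‖inner ℂ (pt z) g‖ ^ 2 ≤ ‖g‖ ^ 2 := by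
  have := norm_inner_le_norm (𝕜 := ℂ) (pt z) g
  rw [pt, norm_gam one_pos, one_mul] at this
  exact pow_le_pow_left₀ (norm_nonneg _) this 2

lemma en_add_three {ι : Type*} {X : Finset ι} {p : ι → V d × ℝ} {w : ι → ℝ}
    (hw : ∀ i ∈ X, 0 ≤ w i) (a b c : L2 d) :
    En X p w (fun _ => a + b + c) ≤
      3 * (En X p w (fun _ => a) + En X p w (fun _ => b) + En X p w (fun _ => c)) := by
  unfold En
  rw [← Finset.sum_add_distrib, ← Finset.sum_add_distrib, Finset.mul_sum]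
  refine Finset.sum_le_sum fun i hi => ?_
  rw [inner_add_right, inner_add_right]
  set x := inner ℂ (pt (p i)) a
  set y := inner ℂ (pt (p i)) b
  set z := inner ℂ (pt (p i)) c
  have h1 : ‖x + y + z‖ ≤ ‖x‖ + ‖y‖ + ‖z‖ := norm_add₃_le
  have h2 : ‖x + y + z‖ ^ 2 ≤ 3 * (‖x‖ ^ 2 + ‖y‖ ^ 2 + ‖z‖ ^ 2) := by
    refine (pow_le_pow_left₀ (norm_nonneg _) h1 2).trans ?_
    nlinarith [sq_nonneg (‖x‖ - ‖y‖), sq_nonneg (‖y‖ - ‖z‖), sq_nonneg (‖x‖ - ‖z‖)]
  nlinarith [hw i hi]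

lemma en_le_card {ι : Type*} {X : Finset ι} {p : ι → V d × ℝ} {w : ι → ℝ}
    (hw : ∀ i ∈ X, w i ≤ 1) (g : L2 d) : En X p w (fun _ => g) ≤ X.card * ‖g‖ ^ 2 := by
  unfold En
  calc _ ≤ ∑ _i ∈ X, ‖g‖ ^ 2 := Finset.sum_le_sum fun i hi => by
        have := inner_pt_sq_le (p i) g
        nlinarith [hw i hi, sq_nonneg ‖inner ℂ (pt (p i)) g‖]
    _ = _ := by simp

/-- the integrand of the main term -/
noncomputable def itg (Z : ℤ → ℤ → Finset (V (d + 1) × ℝ)) (r c₀ Lp L T : ℝ)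
    (g : ℝ → ℝ → L2 d) (k : ℤ) (y : ℝ) (β : Ph d) : ℝ :=
  xray (vv (Z k ⌊y / r⌋) pr (ww r c₀ ⌊y / r⌋) Lp) ((k - 1) * L) ((k + 2) * L) β *
    ‖co T 0 (g (k * L) y) β‖ ^ 2

lemma measurable_floor_comp {β : Type*} [MeasurableSpace β] (F : ℤ → β → ℝ)
    (hF : ∀ m, Measurable (F m)) (r : ℝ) : Measurable fun q : ℝ × β => F ⌊q.1 / r⌋ q.2 := by
  have h1 : Measurable fun q : ℤ × β => F q.1 q.2 := measurable_from_prod_countable_right hF
  have h0 : Measurable fun q : ℝ × β => ((⌊q.1 / r⌋ : ℤ), q.2) :=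
    ((measurable_fst.div_const r).floor).prodMk measurable_snd
  exact h1.comp h0

lemma continuous_co_comp {T : ℝ} (hT : 0 < T) {g : ℝ → L2 d} (hg : Continuous g) :
    Continuous fun q : ℝ × Ph d => co T 0 (g q.1) q.2 := by
  have h4 : Continuous fun β : Ph d => ((0 : ℝ), β) := by fun_prop
  have h3 : Continuous fun β : Ph d => gam T 0 β := by
    have := (continuous_gam (d := d) hT).comp h4
    simpa only [Function.comp_def] using this
  have h5 : Continuous fun q : ℝ × Ph d => gam T 0 q.2 := h3.comp continuous_snd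
  have h6 : Continuous fun q : ℝ × Ph d => g q.1 := hg.comp continuous_fst
  exact h5.inner h6

lemma measurable_itg (Z : ℤ → ℤ → Finset (V (d + 1) × ℝ)) (r c₀ Lp L : ℝ) {T : ℝ} (hT : 0 < T)
    {g : ℝ → ℝ → L2 d} (hg : ∀ t, Continuous (g t)) (k : ℤ) :
    Measurable fun q : ℝ × Ph d => ENNReal.ofReal (itg Z r c₀ Lp L T g k q.1 q.2) := by
  have h1 := measurable_floor_comp (fun (m : ℤ) (β : Ph d) =>
    xray (vv (Z k m) pr (ww r c₀ m) Lp) ((k - 1) * L) ((k + 2) * L) β)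
    (fun m => (continuous_xray (continuous_vv (Z k m) pr (ww r c₀ m) Lp)
        ((k - 1) * L) ((k + 2) * L)).measurable) r
  have h2 := ((continuous_co_comp hT (hg (k * L))).norm.pow 2).measurable
  exact (h1.mul h2).ennreal_ofReal

/-- summation of the main terms by `St` -/
lemma st_sum (d : ℕ) (hd : 1 ≤ d) : ∃ C : ℝ, 0 ≤ C ∧ ∀ (X : Finset (V (d + 1) × ℝ)) (A R L r Lp T c₀ E : ℝ)
    (D : ℕ) (K : Finset ℤ) (Z : ℤ → ℤ → Finset (V (d + 1) × ℝ)) (g : ℝ → ℝ → L2 d)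
    (cc : Ph d → ℝ → ℂ) (𝓡 : Set (Ph d)) (μ₀ : ℝ),
    (∀ (E : Finset (V (d + 1) × ℝ)) (a : ℝ) (u : V d × ℝ), E ⊆ X →
      (∀ z ∈ E, a ≤ yc c₀ z ∧ yc c₀ z ≤ a + Lp) → dens E pr (fun _ => 1) Lp u ≤ A) →
    0 ≤ A → 0 < r → 0 < L → L ≤ R → 0 < T → r + R / r + (2 * D + 2) * r ≤ Lp →
    (∀ k ∈ K, |(k : ℝ) * L| ≤ 2 * R) → (∀ k m, Z k m ⊆ X) →
    (∀ k m, ∀ z ∈ Z k m, |mi r c₀ z - m| ≤ D) → (∀ t, Continuous (g t)) →
    (∀ t y β, co T 0 (g t y) β = U1 t (cc β) y) → (∀ β, MemLp (cc β) 2 volume) →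
    (∀ β η, 1 / r < |η| → cc β η = 0) → Measurable (fun β => ∫ η, ‖cc β η‖ ^ 2) →
    ∫⁻ β, ENNReal.ofReal (∫ η, ‖cc β η‖ ^ 2) ≤ ENNReal.ofReal E → MeasurableSet 𝓡 →
    (∀ β ∈ 𝓡, xray (cm X pr Lp A) (-(4 * R)) (4 * R) β / R ≤ μ₀) →
    ∑ k ∈ K, ∫⁻ y, ∫⁻ β in 𝓡, ENNReal.ofReal (itg Z r c₀ Lp L T g k y β) ≤
      ENNReal.ofReal (C * (R ^ (((d : ℝ) + 1) / (d + 2)) * (A * μ₀) ^ (1 / ((d : ℝ) + 2))
        + L * (A / r) ^ (2 / ((d : ℝ) + 2))) * E) := by
  set q : ℝ := ((d : ℝ) + 2) / 2 with hq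
  have hd1 : (1 : ℝ) ≤ d := by exact_mod_cast hd
  have hq1 : 1 < q := by rw [hq]; linarith
  obtain ⟨C, hC, hst⟩ := st q hq1
  set a : ℝ := 3 ^ (q + 1) with ha
  have ha1 : 1 ≤ a := Real.one_le_rpow (by norm_num) (by linarith)
  have ha3 : a = 3 ^ q * 3 := by rw [ha, Real.rpow_add (by norm_num), Real.rpow_one]
  refine ⟨C * a, by positivity, ?_⟩
  intro X A R L r Lp T c₀ E D K Z g cc 𝓡 μ₀ hA hA0 hr hL hLR hT hLp hK hZ hZm hg hco hcc hsupp
    hmeas hE h𝓡 hμ
  have hR : 0 < R := by linarith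
  have hl : 0 < r + R / r := by positivity
  have hLp0 : 0 < Lp := by
    have : 0 < (2 * (D : ℝ) + 2) * r := by positivity
    linarith
  set G : ℝ := C * a * (R ^ (((d : ℝ) + 1) / (d + 2)) * (A * μ₀) ^ (1 / ((d : ℝ) + 2))
    + L * (A / r) ^ (2 / ((d : ℝ) + 2))) with hG
  have key : ∀ β ∈ 𝓡, ∑ k ∈ K, ∫⁻ y, ENNReal.ofReal (itg Z r c₀ Lp L T g k y β) ≤
      ENNReal.ofReal G * ENNReal.ofReal (∫ η, ‖cc β η‖ ^ 2) := by
    intro β hβ
    have hw : ∀ k : ℤ, ((k : ℝ) + 2) * L = (k - 1) * L + 3 * L := fun k => by ring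
    have hcm0 := cm_nonneg X pr hLp0 hA0
    have hx0 : ∀ k : ℤ, 0 ≤ xray (cm X pr Lp A) ((k - 1) * L) ((k + 2) * L) β := fun k =>
      xray_nonneg hcm0 (by nlinarith) β
    have h1 := hst R L r (r + R / r) (a * A) hL hLR hr le_rfl (by positivity) K hK
      (fun k y => xray (vv (Z k ⌊y / r⌋) pr (ww r c₀ ⌊y / r⌋) Lp) ((k - 1) * L) ((k + 2) * L) β / L)
      (fun k => 3 ^ q * (xray (cm X pr Lp A) ((k - 1) * L) ((k + 2) * L) β / L))
      (fun k => ((measurable_from_top (f := fun m : ℤ =>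
        xray (vv (Z k m) pr (ww r c₀ m) Lp) ((k - 1) * L) ((k + 2) * L) β / L)).comp
        (measurable_id.div_const r).floor))
      (fun k y => div_nonneg (xray_nonneg (fun u => Real.rpow_nonneg
        (dens_nonneg _ pr (fun z _ => ww_nonneg hr c₀ _ z) hLp0 u) _) (by nlinarith) β) hL.le)
      (fun k _ => ⟨mul_nonneg (by positivity) (div_nonneg (hx0 k) hL.le), by
        have := xray_le (continuous_cm X pr Lp A) (fun u => min_le_left _ _)
          (a := (k - 1) * L) (b := (k + 2) * L) (by nlinarith) β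
        rw [ha3, mul_assoc]
        gcongr
        rw [div_le_iff₀ hL]; nlinarith⟩)
      (fun k _ y₀ => by
        simp only [hw k]
        exact col_bound hA hr hl.le hL hLp (Z k) (hZ k) (hZm k) _ β y₀)
      (cc β) (hcc β) (hsupp β)
    have h2 : L / R * ∑ k ∈ K, 3 ^ q * (xray (cm X pr Lp A) ((k - 1) * L) ((k + 2) * L) β / L) ≤
        a * μ₀ := by
      have h3 := sum_windows_le (continuous_line' (continuous_cm X pr Lp A) β)
        (fun s => hcm0 _) hL hLR K hK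
      calc _ = 3 ^ q * ((∑ k ∈ K, xray (cm X pr Lp A) ((k - 1) * L) ((k + 2) * L) β) / R) := by
            rw [← Finset.mul_sum, ← Finset.sum_div]; field_simp
        _ ≤ 3 ^ q * ((3 * xray (cm X pr Lp A) (-(4 * R)) (4 * R) β) / R) := by
            gcongr; exact h3
        _ = a * (xray (cm X pr Lp A) (-(4 * R)) (4 * R) β / R) := by rw [ha3]; ring
        _ ≤ _ := by gcongr; exact hμ β hβ
    have hμ0 : 0 ≤ μ₀ := le_trans (div_nonneg (xray_nonneg hcm0 (by linarith) β) hR.le) (hμ β hβ)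
    have e1 : 1 - 1 / (2 * q) = ((d : ℝ) + 1) / (d + 2) := by rw [hq]; field_simp; ring
    have e2 : 1 / (2 * q) = 1 / ((d : ℝ) + 2) := by rw [hq]; field_simp
    have e3 : 1 / q = 2 / ((d : ℝ) + 2) := by rw [hq]; field_simp
    rw [e1, e2, e3] at h1
    rw [← ENNReal.ofReal_mul (by positivity)]
    refine le_trans (le_of_eq ?_) (h1.trans (ENNReal.ofReal_le_ofReal ?_))
    · refine Finset.sum_congr rfl fun k _ => lintegral_congr fun y => ?_
      rw [itg, hco]; congr 1; field_simp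
    · refine mul_le_mul_of_nonneg_right ?_ (integral_nonneg fun _ => by positivity)
      rw [hG, mul_assoc C]
      refine mul_le_mul_of_nonneg_left ?_ hC
      have h4 : (a * A * (L / R * ∑ k ∈ K,
          3 ^ q * (xray (cm X pr Lp A) ((k - 1) * L) ((k + 2) * L) β / L))) ^ (1 / ((d : ℝ) + 2)) ≤
          a * (A * μ₀) ^ (1 / ((d : ℝ) + 2)) := by
        calc _ ≤ (a ^ (2 : ℝ) * (A * μ₀)) ^ (1 / ((d : ℝ) + 2)) := by
              refine Real.rpow_le_rpow (mul_nonneg (by positivity) (mul_nonneg (by positivity)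
                (Finset.sum_nonneg fun k _ => mul_nonneg (by positivity)
                  (div_nonneg (hx0 k) hL.le)))) ?_ (by positivity)
              rw [Real.rpow_two]
              calc _ ≤ a * A * (a * μ₀) := by gcongr
                _ = _ := by ring
          _ = a ^ (2 * (1 / ((d : ℝ) + 2))) * (A * μ₀) ^ (1 / ((d : ℝ) + 2)) := by
              rw [Real.mul_rpow (by positivity) (by positivity), ← Real.rpow_mul (by positivity)]
          _ ≤ a ^ (1 : ℝ) * (A * μ₀) ^ (1 / ((d : ℝ) + 2)) := by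
              gcongr
              rw [mul_one_div, div_le_one (by positivity)]; linarith
          _ = _ := by rw [Real.rpow_one]
      have h5 : (a * A / r) ^ (2 / ((d : ℝ) + 2)) ≤ a * (A / r) ^ (2 / ((d : ℝ) + 2)) := by
        rw [mul_div_assoc, Real.mul_rpow (by positivity) (by positivity)]
        gcongr
        calc a ^ (2 / ((d : ℝ) + 2)) ≤ a ^ (1 : ℝ) := by
              gcongr
              rw [div_le_one (by positivity)]; linarith
          _ = _ := Real.rpow_one _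
      calc _ ≤ R ^ (((d : ℝ) + 1) / (d + 2)) * (a * (A * μ₀) ^ (1 / ((d : ℝ) + 2))) +
            L * (a * (A / r) ^ (2 / ((d : ℝ) + 2))) := by gcongr
        _ = _ := by ring
  have hm := measurable_itg Z r c₀ Lp L hT hg
  calc _ = ∑ k ∈ K, ∫⁻ β in 𝓡, ∫⁻ y, ENNReal.ofReal (itg Z r c₀ Lp L T g k y β) :=
        Finset.sum_congr rfl fun k _ => lintegral_lintegral_swap (hm k).aemeasurable
    _ ≤ ∫⁻ β in 𝓡, ∑ k ∈ K, ∫⁻ y, ENNReal.ofReal (itg Z r c₀ Lp L T g k y β) :=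
        sum_lintegral_le _ _ _
    _ ≤ ∫⁻ β in 𝓡, ENNReal.ofReal G * ENNReal.ofReal (∫ η, ‖cc β η‖ ^ 2) :=
        setLIntegral_mono' h𝓡 key
    _ ≤ ENNReal.ofReal G * ENNReal.ofReal E := by
        rw [lintegral_const_mul _ hmeas.ennreal_ofReal]
        gcongr
        exact (setLIntegral_le_lintegral _ _).trans hE
    _ ≤ _ := by
        by_cases h : 0 ≤ G
        · rw [ENNReal.ofReal_mul h]
        · rw [ENNReal.ofReal_of_nonpos (not_le.1 h).le]; simp

end Crest.Agent.N76.II.B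
end

-- ▼ part N76/II/B/Top

/-! # Row 76, part II D: rich and poor lines, the estimate for the regular points (helper8). -/

set_option autoImplicit false

open MeasureTheory Set Metric
open scoped ENNReal RealInnerProductSpace

namespace Crest.Agent.N76.II.B

open Crest.Agent.N76.Red (V ph)
open Crest.Agent.N76.G

variable {d : ℕ}

/-- the conclusion of `LP` for one configuration -/
def LPout {ι : Type} (X X' : Finset ι) (p : ι → V d × ℝ) (w : ι → ℝ) (T Lp L : ℝ) (k : ℤ)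
    (B c C err : ℝ) : Prop :=
  ∀ (𝓡 : Set (Ph d)) (φ₀ : ℝ), MeasurableSet 𝓡 → (∀ β ∈ 𝓡, ‖β.2‖ ≤ 2) → 0 ≤ φ₀ →
    (∀ z ∈ X', ∃ Φ : Set (V d), MeasurableSet Φ ∧ volume Φ ≤ ENNReal.ofReal φ₀ ∧
      ∀ β ∈ 𝓡, ‖pos (p z).2 β - (p z).1‖ ≤ B * T → closedBall β.2 (1 / B ^ 22) ⊆ Φ) →
    ∀ g : L2 d, En X' p w (fun _ => loc T 0 𝓡 g) ≤
      C * φ₀ ^ c * (∫ β in 𝓡, xray (vv X p w Lp) ((k - 1) * L) ((k + 2) * L) β *
        ‖co T 0 g β‖ ^ 2) + err * ‖g‖ ^ 2

/-- few directions through a point are rich -/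
lemma exists_dir (d : ℕ) : ∃ C : ℝ, 0 ≤ C ∧ ∀ (ι : Type) (X : Finset ι) (p : ι → V d × ℝ)
    (Lp A R σ ρ₁ ρ₂ : ℝ) (u : V d × ℝ), 0 < Lp → 1 ≤ A → 0 < R → 0 < σ →
    (X.card : ℝ) = σ ^ (d + 1) * R ^ (d + 1) → |u.2| ≤ R → ρ₂ ≤ 1 → ρ₁ + 10 * R * ρ₂ ≤ Lp →
    ∃ Φ : Set (V d), MeasurableSet Φ ∧ volume Φ ≤ ENNReal.ofReal (C * A * √σ) ∧
      ∀ β : Ph d, ‖β.2‖ ≤ 2 → √σ ≤ xray (cm X p Lp A) (-(4 * R)) (4 * R) β / R →
        ‖pos u.2 β - u.1‖ ≤ ρ₁ → closedBall β.2 ρ₂ ⊆ Φ := by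
  obtain ⟨C, hC, hb⟩ := bush d
  refine ⟨2 * Real.exp 1 * C, by positivity, ?_⟩
  intro ι X p Lp A R σ ρ₁ ρ₂ u hLp hA hR hσ hX hu hρ₂ hρ
  have hs : 0 < √σ := Real.sqrt_pos.2 hσ
  set F : V d → ℝ := fun ζ => xray (cm X p Lp A) (-(4 * R)) (4 * R) (thru u ζ) with hF
  have hFc : Continuous F := (continuous_xray (continuous_cm X p Lp A) _ _).comp
    (by unfold thru; fun_prop)
  set θ : ℝ := √σ * R / Real.exp 1 with hθ
  have hθ0 : 0 < θ := by positivity
  refine ⟨closedBall 0 3 ∩ {ζ | θ ≤ F ζ}, measurableSet_closedBall.inter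
    (isClosed_le continuous_const hFc).measurableSet, ?_, fun β hβ hr hn ζ hζ => ⟨?_, ?_⟩⟩
  · have h1 := meas_ge_le_lintegral_div (μ := volume.restrict (closedBall (0 : V d) 3))
      hFc.measurable.ennreal_ofReal.aemeasurable (ε := ENNReal.ofReal θ) (by simpa using hθ0)
      ENNReal.ofReal_ne_top
    rw [Measure.restrict_apply' measurableSet_closedBall] at h1
    calc _ ≤ volume ({ζ | ENNReal.ofReal θ ≤ ENNReal.ofReal (F ζ)} ∩ closedBall 0 3) :=
          measure_mono fun ζ hζ => ⟨ENNReal.ofReal_le_ofReal hζ.2, hζ.1⟩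
      _ ≤ _ := h1
      _ ≤ ENNReal.ofReal (C * (A * (σ * R) + (X.card : ℝ) / (σ * R) ^ d)) / ENNReal.ofReal θ := by
          gcongr
          exact hb ι X p Lp A R σ u hLp (by linarith) hR hσ
      _ ≤ _ := by
          rw [← ENNReal.ofReal_div_of_pos hθ0]
          refine ENNReal.ofReal_le_ofReal ?_
          have h2 : (X.card : ℝ) / (σ * R) ^ d = σ * R := by rw [hX]; field_simp; ring
          have h3 : σ = √σ * √σ := (Real.mul_self_sqrt hσ.le).symm
          rw [h2, div_le_iff₀ hθ0]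
          calc C * (A * (σ * R) + σ * R) ≤ C * (A * (σ * R) + A * (σ * R)) := by
                have : σ * R ≤ A * (σ * R) := le_mul_of_one_le_left (by positivity) hA
                exact mul_le_mul_of_nonneg_left (by linarith) hC
            _ = 2 * Real.exp 1 * C * A * √σ * θ := by
                rw [hθ]; field_simp; nlinarith [Real.sq_sqrt hσ.le]
  · rw [mem_closedBall, dist_eq_norm] at hζ
    rw [mem_closedBall, dist_zero_right]
    have := norm_sub_norm_le ζ β.2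
    linarith
  · rw [mem_closedBall, dist_eq_norm] at hζ
    have h1 := xray_cm_lip X p hLp (by linarith : 0 ≤ A) (by linarith : -(4 * R) ≤ 4 * R)
      (β := β) (β' := thru u ζ) fun s hs => by
        have e : pos s β - pos s (thru u ζ) =
            (pos u.2 β - u.1) + (2 * (s - u.2)) • (ζ - β.2) := by
          rw [pos_thru]; simp only [pos]; module
        have h2 : |2 * (s - u.2)| ≤ 10 * R := by
          obtain ⟨h3, h4⟩ := hs
          obtain ⟨h5, h6⟩ := abs_le.1 hu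
          exact abs_le.2 ⟨by linarith, by linarith⟩
        rw [e]
        refine (norm_add_le _ _).trans (le_trans ?_ hρ)
        rw [norm_smul, Real.norm_eq_abs]
        gcongr
    rw [le_div_iff₀ hR] at hr
    show θ ≤ F ζ
    rw [hθ, div_le_iff₀ (Real.exp_pos 1)]
    linarith

lemma exp_le_ww {r : ℝ} (hr : 0 < r) (c₀ : ℝ) (z : V (d + 1) × ℝ) (y : ℝ) :
    1 / r * Real.exp (-(|yc c₀ z - y| / r)) ≤ Real.exp 1 / kap d * ww r c₀ ⌊y / r⌋ z := by
  have hk := kap_pos d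
  have h1 : |(mi r c₀ z : ℝ) - (⌊y / r⌋ : ℤ)| ≤ 1 + |yc c₀ z - y| / r := by
    have e : |yc c₀ z - y| / r = |yc c₀ z / r - y / r| := by
      rw [← sub_div, abs_div, abs_of_pos hr]
    have h2 := Int.floor_le (yc c₀ z / r)
    have h3 := Int.lt_floor_add_one (yc c₀ z / r)
    have h4 := Int.floor_le (y / r)
    have h5 := Int.lt_floor_add_one (y / r)
    have h6 := le_abs_self (yc c₀ z / r - y / r)
    have h7 := neg_abs_le (yc c₀ z / r - y / r)
    rw [e, mi]
    exact abs_le.2 ⟨by linarith, by linarith⟩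
  calc _ ≤ 1 / r * (Real.exp 1 * Real.exp (-|(mi r c₀ z : ℝ) - (⌊y / r⌋ : ℤ)|)) := by
        rw [← Real.exp_add]; gcongr; linarith
    _ = _ := by unfold ww; field_simp

lemma ww_le_exp {r : ℝ} (hr : 1 ≤ r) (c₀ : ℝ) (m : ℤ) (z : V (d + 1) × ℝ) :
    ww r c₀ m z ≤ Real.exp (-|(mi r c₀ z : ℝ) - m|) := by
  have h1 : kap d / r ≤ 1 := by
    rw [div_le_one (by linarith)]; linarith [kap_le d]
  exact mul_le_of_le_one_left (Real.exp_pos _).le h1

lemma lintegral_three {α : Type*} [MeasurableSpace α] (μ : Measure α) {f₁ f₂ f₃ : α → ℝ≥0∞}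
    (h₁ : Measurable f₁) (h₂ : Measurable f₂) (h₃ : Measurable f₃) (a b c : ℝ≥0∞) :
    ∫⁻ y, (a * f₁ y + b * f₂ y + c * f₃ y) ∂μ =
      a * (∫⁻ y, f₁ y ∂μ) + b * (∫⁻ y, f₂ y ∂μ) + c * ∫⁻ y, f₃ y ∂μ := by
  rw [lintegral_add_right _ (h₃.const_mul c), lintegral_add_right _ (h₂.const_mul b),
    lintegral_const_mul _ h₁, lintegral_const_mul _ h₂, lintegral_const_mul _ h₃]

lemma card_windows {R L : ℝ} (hL : 0 < L) (hLR : L ≤ R) {K : Finset ℤ}
    (hK : ∀ k ∈ K, |(k : ℝ) * L| ≤ 2 * R) : (K.card : ℝ) ≤ 5 * (R / L) := by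
  have hR : 0 < R := by linarith
  have h1 : K ⊆ Finset.Icc (-⌊2 * R / L⌋) ⌊2 * R / L⌋ := by
    intro k hk
    obtain ⟨h2, h3⟩ := abs_le.1 (hK k hk)
    refine Finset.mem_Icc.2 ⟨neg_le.1 (Int.le_floor.2 ?_), Int.le_floor.2 ?_⟩
    · rw [le_div_iff₀ hL]; push_cast; linarith
    · rw [le_div_iff₀ hL]; linarith
  have h2 : 0 ≤ ⌊2 * R / L⌋ := Int.floor_nonneg.2 (by positivity)
  have h3 : (K.card : ℤ) ≤ 2 * ⌊2 * R / L⌋ + 1 := by
    have := Finset.card_le_card h1
    rw [Int.card_Icc] at this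
    omega
  have h4 : (K.card : ℝ) ≤ 2 * (⌊2 * R / L⌋ : ℤ) + 1 := by exact_mod_cast h3
  have h5 := Int.floor_le (2 * R / L)
  have h6 : 1 ≤ R / L := by rw [le_div_iff₀ hL]; linarith
  have h7 : 2 * R / L = 2 * (R / L) := by ring
  linarith

lemma loc_split {T : ℝ} (hT : 0 < T) {M : Ph d → ℝ} (hM : Continuous M) (s : ℝ) :
    MeasurableSet {β : Ph d | ‖β.2‖ ≤ 2 ∧ s ≤ M β} ∧ MeasurableSet {β : Ph d | ‖β.2‖ ≤ 2 ∧ M β < s} ∧
    ∀ G : L2 d, loc T 0 {β : Ph d | ‖β.2‖ ≤ 2 ∧ s ≤ M β} G +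
      loc T 0 {β : Ph d | ‖β.2‖ ≤ 2 ∧ M β < s} G + loc T 0 {β : Ph d | 2 < ‖β.2‖} G = G := by
  have hn : MeasurableSet {β : Ph d | ‖β.2‖ ≤ 2} :=
    (isClosed_le (by fun_prop) continuous_const).measurableSet
  have hrm : MeasurableSet {β : Ph d | ‖β.2‖ ≤ 2 ∧ s ≤ M β} :=
    hn.inter (isClosed_le continuous_const hM).measurableSet
  have hpm : MeasurableSet {β : Ph d | ‖β.2‖ ≤ 2 ∧ M β < s} :=
    hn.inter (isOpen_lt hM continuous_const).measurableSet
  have hfm : MeasurableSet {β : Ph d | 2 < ‖β.2‖} :=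
    (isOpen_lt continuous_const (by fun_prop)).measurableSet
  refine ⟨hrm, hpm, fun G => ?_⟩
  rw [← loc_union hT 0 hrm hpm, ← loc_union hT 0 (hrm.union hpm) hfm]
  · convert loc_univ hT 0 G
    refine eq_univ_of_forall fun β => ?_
    by_cases h : ‖β.2‖ ≤ 2
    · rcases le_or_gt s (M β) with h' | h'
      · exact Or.inl (Or.inl ⟨h, h'⟩)
      · exact Or.inl (Or.inr ⟨h, h'⟩)
    · exact Or.inr (not_le.1 h)
  · refine Set.disjoint_left.2 fun β h1 h2 => ?_
    have h3 : ‖β.2‖ ≤ 2 := by rcases h1 with h | h <;> exact h.1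
    exact absurd h2 (not_lt.2 h3)
  · exact Set.disjoint_left.2 fun β h1 h2 => absurd h2.2 (not_lt.2 h1.2)

open Classical in
/-- the bound for one slice -/
lemma slice_bound {r c₀ T Cs N u₁ u₂ : ℝ} {D : ℕ} (Y : Finset (V (d + 1) × ℝ)) (y : ℝ)
    (hr : 1 ≤ r) (hT : 1 ≤ T) (hCs : 0 ≤ Cs) (hN : (Y.card : ℝ) ≤ N) (G G₁ G₂ : L2 d)
    (hG : ∀ᵐ ξ : V d, 1 < ‖ξ‖ → G ξ = 0) (hs : G₁ + G₂ + loc T 0 {β : Ph d | 2 < ‖β.2‖} G = G)
    (h₁ : En (Y.filter fun z => |mi r c₀ z - ⌊y / r⌋| ≤ D) pr (ww r c₀ ⌊y / r⌋) (fun _ => G₁) ≤ u₁)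
    (h₂ : En (Y.filter fun z => |mi r c₀ z - ⌊y / r⌋| ≤ D) pr (ww r c₀ ⌊y / r⌋) (fun _ => G₂) ≤ u₂) :
    ∑ z ∈ Y, Cs / r * Real.exp (-(|yc c₀ z - y| / r)) * ‖inner ℂ (pt (pr z)) G‖ ^ 2 ≤
      Cs * (Real.exp 1 / kap d) *
        (3 * (u₁ + u₂) + N * (3 * 2 ^ d * Real.exp (-T) + Real.exp (-D)) * ‖G‖ ^ 2) := by
  have hr0 : 0 < r := by linarith
  have hk := kap_pos d
  set m := ⌊y / r⌋ with hm
  set X' := Y.filter fun z => |mi r c₀ z - m| ≤ D with hX'
  have hw0 : ∀ z ∈ X', 0 ≤ ww r c₀ m z := fun z _ => ww_nonneg hr0 c₀ m z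
  have hcX : ∀ {P : V (d + 1) × ℝ → Prop} [DecidablePred P], ((Y.filter P).card : ℝ) ≤ N :=
    fun {P} _ => le_trans (by exact_mod_cast Finset.card_filter_le _ _) hN
  have h1 : ∑ z ∈ Y, ww r c₀ m z * ‖inner ℂ (pt (pr z)) G‖ ^ 2 ≤
      En X' pr (ww r c₀ m) (fun _ => G) + N * Real.exp (-D) * ‖G‖ ^ 2 := by
    rw [← Finset.sum_filter_add_sum_filter_not _ fun z => |mi r c₀ z - m| ≤ D]
    refine add_le_add le_rfl ?_
    calc _ ≤ ∑ _z ∈ Y.filter fun z => ¬ |mi r c₀ z - m| ≤ D, Real.exp (-D) * ‖G‖ ^ 2 := by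
          refine Finset.sum_le_sum fun z hz => mul_le_mul ((ww_le_exp hr c₀ m z).trans ?_)
            (inner_pt_sq_le _ _) (by positivity) (by positivity)
          have h2 : (D : ℤ) ≤ |mi r c₀ z - m| := (not_le.1 (Finset.mem_filter.1 hz).2).le
          have h3 : (D : ℝ) ≤ |(mi r c₀ z : ℝ) - m| := by exact_mod_cast h2
          exact Real.exp_le_exp.2 (neg_le_neg h3)
      _ ≤ _ := by
          rw [Finset.sum_const, nsmul_eq_mul, mul_assoc]
          exact mul_le_mul_of_nonneg_right hcX (by positivity)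
  have h2 := en_add_three (p := pr) hw0 G₁ G₂ (loc T 0 {β : Ph d | 2 < ‖β.2‖} G)
  rw [hs] at h2
  have h5 : En X' pr (ww r c₀ m) (fun _ => loc T 0 {β : Ph d | 2 < ‖β.2‖} G) ≤
      N * (2 ^ d * Real.exp (-T) * ‖G‖ ^ 2) :=
    (en_le_card (fun z _ => (ww_le_exp hr c₀ m z).trans (Real.exp_le_one_iff.2
      (neg_nonpos.2 (abs_nonneg _)))) _).trans
      (mul_le_mul hcX (far_le hT G hG) (by positivity) ((Nat.cast_nonneg _).trans hN))
  calc _ ≤ ∑ z ∈ Y, Cs * (Real.exp 1 / kap d) * (ww r c₀ m z * ‖inner ℂ (pt (pr z)) G‖ ^ 2) := by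
        refine Finset.sum_le_sum fun z _ => ?_
        have := exp_le_ww hr0 c₀ z y
        calc _ = Cs * (1 / r * Real.exp (-(|yc c₀ z - y| / r))) *
              ‖inner ℂ (pt (pr z)) G‖ ^ 2 := by ring
          _ ≤ Cs * (Real.exp 1 / kap d * ww r c₀ m z) * ‖inner ℂ (pt (pr z)) G‖ ^ 2 := by
              gcongr
          _ = _ := by ring
    _ ≤ _ := by
        rw [← Finset.mul_sum]
        refine mul_le_mul_of_nonneg_left ?_ (by positivity)
        linarith

lemma final_arith {C₁ Cs Ct Cp x₁ x₂ x₃ y₁ y₂ y₃ s₁ s₂ s₃ P Q w err N E h t : ℝ}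
    (hC₁ : 0 ≤ C₁) (hCs : 0 ≤ Cs) (hCt : 0 ≤ Ct) (hCp : 0 ≤ Cp) (hx₁ : 0 ≤ x₁) (hx₂ : 0 ≤ x₂)
    (hx₃ : 0 ≤ x₃) (hy₁ : 0 ≤ y₁) (hy₂ : 0 ≤ y₂) (hs₁ : 0 ≤ s₁) (hs₂ : 0 ≤ s₂) (hs₃ : s₁ ≤ s₃)
    (hP : 0 ≤ P) (hQ : 0 ≤ Q) (hw : 0 ≤ w) (herr : 0 ≤ err) (hN : 0 ≤ N) (hE : y₃ ≤ 6 * t * E)
    (hE0 : 0 ≤ E) (hh : 0 ≤ h) (ht : 1 ≤ t) :
    3 * C₁ * Cp * (x₁ * s₁) * (Ct * (P * x₂ + x₃ * Q) * (Cs * h)) +
      3 * C₁ * Cp * y₁ * (Ct * (P * (y₂ * s₂) + x₃ * Q) * (Cs * h)) +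
      5 * w * (C₁ * (6 * err + N * y₃) * (Cs * h)) ≤
    3 * C₁ * Cs * (Ct * (x₁ * (x₂ + s₃ * x₃) + y₁ * (y₂ + x₃)) + 10 * t) *
      (Cp * ((s₁ + s₂) * P + Q) + w * (err + N * E)) * h := by
  set W := (s₁ + s₂) * P + Q with hW
  set M := w * (err + N * E) with hM
  have hM0 : 0 ≤ M := by positivity
  have hW1 : s₁ * P ≤ W := by rw [hW]; nlinarith [mul_nonneg hs₂ hP]
  have hW2 : s₂ * P ≤ W := by rw [hW]; nlinarith [mul_nonneg hs₁ hP]
  have hW3 : Q ≤ W := by rw [hW]; nlinarith [mul_nonneg hs₁ hP, mul_nonneg hs₂ hP]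
  have hW0 : 0 ≤ W := hQ.trans hW3
  have hs₃0 : 0 ≤ s₃ := hs₁.trans hs₃
  have g1 : x₁ * (x₂ * (s₁ * P) + s₁ * x₃ * Q) ≤ x₁ * (x₂ * W + s₃ * x₃ * W) := by gcongr
  have g2 : y₁ * (y₂ * (s₂ * P) + x₃ * Q) ≤ y₁ * (y₂ * W + x₃ * W) := by gcongr
  have g3 : 5 * w * (6 * err + N * y₃) ≤ 5 * w * (6 * t * err + N * (6 * t * E)) := by
    have : 6 * err ≤ 6 * t * err := by nlinarith
    gcongr
  set a := x₁ * (x₂ + s₃ * x₃) + y₁ * (y₂ + x₃) with ha
  have ha0 : 0 ≤ a := by positivity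
  calc _ = C₁ * Cs * h * (3 * (Ct * Cp * (x₁ * (x₂ * (s₁ * P) + s₁ * x₃ * Q) +
        y₁ * (y₂ * (s₂ * P) + x₃ * Q))) + 5 * w * (6 * err + N * y₃)) := by ring
    _ ≤ C₁ * Cs * h * (3 * (Ct * Cp * (x₁ * (x₂ * W + s₃ * x₃ * W) +
        y₁ * (y₂ * W + x₃ * W))) + 5 * w * (6 * t * err + N * (6 * t * E))) := by gcongr
    _ = C₁ * Cs * h * (3 * (Ct * a * (Cp * W) + 10 * t * M)) := by rw [ha, hM]; ring
    _ ≤ C₁ * Cs * h * (3 * ((Ct * a + 10 * t) * (Cp * W + M))) := by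
        refine mul_le_mul_of_nonneg_left ?_ (by positivity)
        have t1 : 0 ≤ Ct * a * M := by positivity
        have t2 : 0 ≤ 10 * t * (Cp * W) := by positivity
        nlinarith
    _ = _ := by ring

open Classical in
/-- **the estimate for the regular points** -/
lemma main_est (d : ℕ) (hd : 1 ≤ d) {c : ℝ} (hc : 0 < c) : ∃ C : ℝ, 0 ≤ C ∧
    ∀ (R r L T Lp B c₀ σ Cp err : ℝ) (D : ℕ) (X Xs : Finset (V (d + 1) × ℝ))
      (kk : V (d + 1) × ℝ → ℤ) (Z : ℤ → ℤ → Finset (V (d + 1) × ℝ)) (H : L2 (d + 1)),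
    Graph R X → Xs ⊆ X → |c₀| ≤ 2 → 1 ≤ r → 0 < L → L ≤ r ^ 2 → L ≤ R → 1 ≤ T → 1 ≤ B →
    r + R / r + (2 * D + 2) * r ≤ Lp → B * T + 10 * R * (1 / B ^ 22) ≤ Lp →
    0 < σ → σ ≤ 3 → (X.card : ℝ) = σ ^ (d + 1) * R ^ (d + 1) → 0 ≤ Cp → 0 ≤ err →
    (∀ z ∈ X, kk z * L ≤ z.2 ∧ z.2 ≤ kk z * L + L) → (∀ k m, Z k m ⊆ X) →
    (∀ k m, ∀ z ∈ Z k m, |mi r c₀ z - m| ≤ D) →
    (∀ k m, LPout (Z k m) ((Xs.filter fun z => kk z = k).filter fun z => |mi r c₀ z - m| ≤ D) pr
      (ww r c₀ m) T Lp L k B c Cp err) →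
    (∀ᵐ ξ : V (d + 1), 1 < ‖ξ‖ → H ξ = 0) → (∀ᵐ ξ : V (d + 1), 1 / r < |ξ 0 - c₀| → H ξ = 0) →
    En Xs id (fun _ => 1) (fun _ => H) ≤
      C * (Cp * ((σ ^ (c / 2) + σ ^ (1 / (2 * ((d : ℝ) + 2)))) * R ^ (((d : ℝ) + 1) / (d + 2))
          + L * (1 / r) ^ (2 / ((d : ℝ) + 2)))
        + R / L * (err + X.card * (Real.exp (-T) + Real.exp (-D)))) * ‖H‖ ^ 2 := by
  obtain ⟨Cs, hCs, hsl⟩ := slice d
  obtain ⟨Ct, hCt, hst⟩ := st_sum d hd
  obtain ⟨Cb, hCb, hdir⟩ := exists_dir d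
  obtain ⟨A, hA1, hA⟩ := exists_col_const d
  obtain ⟨v, hv0, hv⟩ : ∃ v : ℝ, 0 ≤ v ∧ volume (closedBall (0 : V d) 3) ≤ ENNReal.ofReal v :=
    ⟨_, ENNReal.toReal_nonneg, (ENNReal.ofReal_toReal measure_closedBall_lt_top.ne).ge⟩
  have hk := kap_pos d
  obtain ⟨C₁, hC₁⟩ : ∃ C₁, C₁ = Cs * (Real.exp 1 / kap d) := ⟨_, rfl⟩
  have hC₁0 : 0 ≤ C₁ := by rw [hC₁]; positivity
  have hA0 : 0 ≤ A := by linarith
  refine ⟨3 * C₁ * Cs * (Ct * ((Cb * A) ^ c * ((A * (8 * A)) ^ (1 / ((d : ℝ) + 2)) +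
    3 ^ (c / 2) * A ^ (2 / ((d : ℝ) + 2))) + v ^ c * (A ^ (1 / ((d : ℝ) + 2)) +
    A ^ (2 / ((d : ℝ) + 2)))) + 10 * 2 ^ d), by positivity, ?_⟩
  intro R r L T Lp B c₀ σ Cp err D X Xs kk Z H hX hXs hc₀ hr hL hLr hLR hT hB hLp hLp2 hσ hσ3 hcard
    hCp herr hkk hZ hZm hLP hH1 hH2
  have hr0 : 0 < r := by linarith
  have hR : 0 < R := by linarith
  have hT0 : 0 < T := by linarith
  have hLp1 : 1 ≤ Lp := by
    have h1 : 0 < (2 * (D : ℝ) + 2) * r := by positivity
    have h2 : 0 < R / r := by positivity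
    linarith
  have hLp0 : 0 < Lp := by linarith
  have hB22 : 1 / B ^ 22 ≤ 1 := by rw [div_le_one (by positivity)]; exact one_le_pow₀ hB
  have hKR : ∀ k ∈ Xs.image kk, |(k : ℝ) * L| ≤ 2 * R := by
    intro k hk
    obtain ⟨z, hz, rfl⟩ := Finset.mem_image.1 hk
    obtain ⟨h1, h2⟩ := hkk z (hXs hz)
    obtain ⟨h3, h4⟩ := abs_le.1 (hX.1 z (hXs hz)).2
    exact abs_le.2 ⟨by linarith, by linarith⟩
  have hwin : ∀ k : ℤ, ((k : ℝ) - 1) * L ≤ (k + 2) * L := fun k =>
    mul_le_mul_of_nonneg_right (by linarith) hL.le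
  have h8 : ∀ β, xray (cm X pr Lp A) (-(4 * R)) (4 * R) β / R ≤ 8 * A := fun β => by
    have := xray_le (continuous_cm X pr Lp A) (fun u => min_le_left _ _)
      (a := -(4 * R)) (b := 4 * R) (by linarith) β
    rw [div_le_iff₀ hR]; linarith
  have hKc := card_windows hL hLR hKR
  obtain ⟨g, cc, hg1, hg2, hg3, hg4, hg5, hg6, hg7, hg8, hg9⟩ := hsl r T c₀ hr hT0 H hH1 hH2
  obtain ⟨hrm, hpm, hsplit⟩ := loc_split hT0
    ((continuous_xray (continuous_cm X pr Lp A) (-(4 * R)) (4 * R)).div_const R) (√σ)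
  have hA' : ∀ (E : Finset (V (d + 1) × ℝ)) (a : ℝ) (u : V d × ℝ), E ⊆ X →
      (∀ z ∈ E, a ≤ yc c₀ z ∧ yc c₀ z ≤ a + Lp) → dens E pr (fun _ => 1) Lp u ≤ A :=
    fun E a u h1 h2 => hA R X E c₀ Lp a u hX h1 hc₀ hLp1 h2
  have hs1 := hst X A R L r Lp T c₀ _ D _ Z g cc _ (8 * A) hA' hA0 hr0 hL hLR hT0 hLp
    hKR hZ hZm hg1 hg5 hg6 hg7 hg8 hg9 hrm fun β _ => h8 β
  have hs2 := hst X A R L r Lp T c₀ _ D _ Z g cc _ (√σ) hA' hA0 hr0 hL hLR hT0 hLp
    hKR hZ hZm hg1 hg5 hg6 hg7 hg8 hg9 hpm fun β hβ => hβ.2.le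
  have hLr' := fun k m => hLP k m _ (Cb * A * √σ) hrm (fun β h => h.1) (by positivity) fun z hz => by
    obtain ⟨Φ, h1, h2, h3⟩ := hdir _ X pr Lp A R σ (B * T) (1 / B ^ 22) (pr z) hLp0 hA1
      hR hσ hcard (hX.1 z (hXs (Finset.mem_filter.1 (Finset.mem_filter.1 hz).1).1)).2 hB22 hLp2
    exact ⟨Φ, h1, h2, fun β hβ => h3 β hβ.1 hβ.2⟩
  have hLp' := fun k m => hLP k m _ v hpm (fun β h => h.1) hv0 fun z _ =>
    ⟨closedBall 0 3, measurableSet_closedBall, hv, fun β hβ _ ζ hζ => by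
      rw [mem_closedBall, dist_eq_norm] at hζ
      rw [mem_closedBall, dist_zero_right]
      have h5 := norm_sub_norm_le ζ β.2
      linarith only [h5, hζ, hβ.1, hB22]⟩
  generalize {β : Ph d | ‖β.2‖ ≤ 2 ∧ √σ ≤ xray (cm X pr Lp A) (-(4 * R)) (4 * R) β / R} = rich at *
  generalize {β : Ph d | ‖β.2‖ ≤ 2 ∧ xray (cm X pr Lp A) (-(4 * R)) (4 * R) β / R < √σ} = poor at *
  clear hsl hst hdir hA hLP
  obtain ⟨φ, hφ⟩ : ∃ φ, φ = Cb * A * √σ := ⟨_, rfl⟩
  obtain ⟨a₃, ha₃⟩ : ∃ a₃, a₃ =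
    C₁ * (6 * err + X.card * (3 * 2 ^ d * Real.exp (-T) + Real.exp (-D))) := ⟨_, rfl⟩
  rw [← hφ] at hLr'
  have hφ0 : 0 ≤ φ := by rw [hφ]; positivity
  have ha₃0 : 0 ≤ a₃ := by rw [ha₃]; positivity
  have hitg : ∀ k y β, 0 ≤ itg Z r c₀ Lp L T g k y β := fun k y β =>
    mul_nonneg (xray_nonneg (fun u => Real.rpow_nonneg
      (dens_nonneg _ pr (fun z _ => ww_nonneg hr0 c₀ _ z) hLp0 u) _) (hwin k) β) (by positivity)
  have hpt : ∀ (k : ℤ) (y : ℝ), ∑ z ∈ Xs.filter fun z => kk z = k,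
      Cs / r * Real.exp (-(|yc c₀ z - y| / r)) * ‖inner ℂ (pt (pr z)) (g (k * L) y)‖ ^ 2 ≤
      3 * C₁ * Cp * φ ^ c * (∫ β in rich, itg Z r c₀ Lp L T g k y β) +
      3 * C₁ * Cp * v ^ c * (∫ β in poor, itg Z r c₀ Lp L T g k y β) +
      a₃ * ‖g (k * L) y‖ ^ 2 := by
    intro k y
    refine (slice_bound (N := X.card) _ y hr hT hCs (by
      exact_mod_cast Finset.card_le_card ((Finset.filter_subset _ _).trans hXs)) _ _ _ (hg2 _ _)
      (hsplit _) (hLr' k _ _) (hLp' k _ _)).trans (le_of_eq ?_)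
    rw [ha₃, ← hC₁]
    simp only [itg]
    ring
  have hm := measurable_itg Z r c₀ Lp L hT0 hg1
  have hJ : ∀ (S : Set (Ph d)) (k : ℤ), Measurable fun y =>
      ∫⁻ β in S, ENNReal.ofReal (itg Z r c₀ Lp L T g k y β) := fun S k =>
    (hm k).lintegral_prod_right'
  rw [← ENNReal.ofReal_le_ofReal_iff (by positivity)]
  calc ENNReal.ofReal (En Xs id (fun _ => 1) (fun _ => H))
      = ∑ k ∈ Xs.image kk, ∑ z ∈ Xs.filter fun z => kk z = k,
          ENNReal.ofReal (‖inner ℂ (pt z) H‖ ^ 2) := by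
        unfold En
        rw [ENNReal.ofReal_sum_of_nonneg fun _ _ => by positivity,
          Finset.sum_fiberwise_of_maps_to fun z hz => Finset.mem_image_of_mem kk hz]
        simp only [one_mul, id]
    _ ≤ ∑ k ∈ Xs.image kk, (ENNReal.ofReal (3 * C₁ * Cp * φ ^ c) *
          (∫⁻ y, ∫⁻ β in rich, ENNReal.ofReal (itg Z r c₀ Lp L T g k y β)) +
          ENNReal.ofReal (3 * C₁ * Cp * v ^ c) *
          (∫⁻ y, ∫⁻ β in poor, ENNReal.ofReal (itg Z r c₀ Lp L T g k y β)) +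
          ENNReal.ofReal a₃ * ENNReal.ofReal (Cs * ‖H‖ ^ 2)) := by
        refine Finset.sum_le_sum fun k _ => ?_
        calc _ ≤ ∑ z ∈ Xs.filter fun z => kk z = k, ∫⁻ y, ENNReal.ofReal
              (Cs / r * Real.exp (-(|yc c₀ z - y| / r)) *
                ‖inner ℂ (pt (pr z)) (g (k * L) y)‖ ^ 2) := by
              refine Finset.sum_le_sum fun z hz => hg4 z _ ?_
              obtain ⟨h1, rfl⟩ := Finset.mem_filter.1 hz
              obtain ⟨h2, h3⟩ := hkk z (hXs h1)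
              exact abs_le.2 ⟨by linarith only [h2, hL, hLr], by linarith only [h3, hLr]⟩
          _ ≤ _ := sum_lintegral_le _ _ _
          _ ≤ ∫⁻ y, (ENNReal.ofReal (3 * C₁ * Cp * φ ^ c) *
                (∫⁻ β in rich, ENNReal.ofReal (itg Z r c₀ Lp L T g k y β)) +
              ENNReal.ofReal (3 * C₁ * Cp * v ^ c) *
                (∫⁻ β in poor, ENNReal.ofReal (itg Z r c₀ Lp L T g k y β)) +
              ENNReal.ofReal a₃ * ENNReal.ofReal (‖g (k * L) y‖ ^ 2)) := by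
              refine lintegral_mono fun y => ?_
              rw [← ENNReal.ofReal_sum_of_nonneg fun _ _ => by positivity]
              refine (ENNReal.ofReal_le_ofReal (hpt k y)).trans (ENNReal.ofReal_add_le.trans
                (add_le_add (ENNReal.ofReal_add_le.trans (add_le_add ?_ ?_)) ?_))
              · rw [ENNReal.ofReal_mul (by positivity)]
                exact mul_le_mul_right (ofReal_integral_le _ (hitg k y)) _
              · rw [ENNReal.ofReal_mul (by positivity)]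
                exact mul_le_mul_right (ofReal_integral_le _ (hitg k y)) _
              · rw [ENNReal.ofReal_mul ha₃0]
          _ ≤ _ := by
              have hgm : Measurable fun y => ENNReal.ofReal (‖g (k * L) y‖ ^ 2) :=
                ((hg1 _).norm.pow 2).measurable.ennreal_ofReal
              rw [lintegral_three _ (hJ rich k) (hJ poor k) hgm]
              exact add_le_add le_rfl (mul_le_mul_right (hg3 _) _)
    _ ≤ _ := by
        rw [Finset.sum_add_distrib, Finset.sum_add_distrib, ← Finset.mul_sum, ← Finset.mul_sum,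
          Finset.sum_const, nsmul_eq_mul, ← ENNReal.ofReal_natCast]
        refine (add_le_add (add_le_add (mul_le_mul_right hs1 _) (mul_le_mul_right hs2 _))
          (mul_le_mul_left (ENNReal.ofReal_le_ofReal hKc) _)).trans ?_
        rw [← ENNReal.ofReal_mul (by positivity), ← ENNReal.ofReal_mul (by positivity),
          ← ENNReal.ofReal_mul ha₃0, ← ENNReal.ofReal_mul (by positivity),
          ← ENNReal.ofReal_add (by positivity) (by positivity),
          ← ENNReal.ofReal_add (by positivity) (by positivity)]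
        refine ENNReal.ofReal_le_ofReal ?_
        have f1 : φ ^ c = (Cb * A) ^ c * σ ^ (c / 2) := by
          rw [hφ, Real.mul_rpow (by positivity) (by positivity), Real.sqrt_eq_rpow,
            ← Real.rpow_mul hσ.le]
          congr 2; ring
        have f2 : (A * √σ) ^ (1 / ((d : ℝ) + 2)) =
            A ^ (1 / ((d : ℝ) + 2)) * σ ^ (1 / (2 * ((d : ℝ) + 2))) := by
          rw [Real.mul_rpow hA0 (by positivity), Real.sqrt_eq_rpow, ← Real.rpow_mul hσ.le]
          congr 2; field_simp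
        have f3 : L * (A / r) ^ (2 / ((d : ℝ) + 2)) =
            A ^ (2 / ((d : ℝ) + 2)) * (L * (1 / r) ^ (2 / ((d : ℝ) + 2))) := by
          rw [div_eq_mul_one_div A, Real.mul_rpow hA0 (by positivity)]; ring
        have f4 : σ ^ (c / 2) ≤ 3 ^ (c / 2) := Real.rpow_le_rpow hσ.le hσ3 (by positivity)
        have f5 : 3 * 2 ^ d * Real.exp (-T) + Real.exp (-D) ≤
            6 * 2 ^ d * (Real.exp (-T) + Real.exp (-D)) := by
          have h2 : (1 : ℝ) ≤ 2 ^ d := one_le_pow₀ (by norm_num)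
          nlinarith only [h2, Real.exp_pos (-T), Real.exp_pos (-(D : ℝ))]
        rw [f1, f2, f3, ha₃]
        exact final_arith hC₁0 hCs hCt hCp (by positivity) (by positivity) (by positivity)
          (by positivity) (by positivity) (by positivity) (by positivity) f4 (by positivity)
          (by positivity) (by positivity) herr (by positivity) f5 (by positivity) (by positivity)
          (one_le_pow₀ (by norm_num))

end Crest.Agent.N76.II.B
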